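import Mathlib

/-!
# P102: shifts of a mixing map, parity errors, weak limits

`shift T n` is the `n`-th power of `T`.  For a configuration `t` and a constant `b`, `err T t b A` is
the set where the parity of the number of `i` with `T^(t i) x ∈ A` differs from `b`.
-/

noncomputable section

namespace Vale.Agent.P102

open MeasureTheory Filter Topology

variable {Ω : Type*} [MeasurableSpace Ω]

/-- Integer powers of a measurable equivalence. -/
def shift (T : Ω ≃ᵐ Ω) (n : ℤ) : Ω → Ω := ⇑((T.toEquiv : Equiv.Perm Ω) ^ n)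

variable (T : Ω ≃ᵐ Ω)

@[simp] theorem shift_zero (x : Ω) : shift T 0 x = x := by simp [shift]

theorem shift_shift (a b : ℤ) (x : Ω) : shift T a (shift T b x) = shift T (a + b) x := by
  simp [shift, zpow_add]

theorem preimage_shift_preimage (a b : ℤ) (E : Set Ω) :
    shift T a ⁻¹' (shift T b ⁻¹' E) = shift T (b + a) ⁻¹' E := by
  ext x; simp [shift_shift]

theorem shift_natCast (n : ℕ) : shift T (n : ℤ) = T^[n] := by
  rw [shift, zpow_natCast, Equiv.Perm.coe_pow]; rfl

/-- The indicator with values in `ZMod 2`. -/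
def ind (A : Set Ω) (x : Ω) : ZMod 2 := A.indicator (fun _ => 1) x

/-- The defect of the parity relation of a configuration. -/
def defect {k : ℕ} (t : Fin k → ℤ) (b : ZMod 2) (A : Set Ω) (x : Ω) : ZMod 2 :=
  b + ∑ i, ind A (shift T (t i) x)

/-- Where the parity relation fails. -/
def err {k : ℕ} (t : Fin k → ℤ) (b : ZMod 2) (A : Set Ω) : Set Ω := {x | defect T t b A x ≠ 0}

/-- Two defects commute. -/
theorem sum_defect_comm {k : ℕ} (s t : Fin k → ℤ) (b : ZMod 2) (A : Set Ω) (x : Ω) :
    ∑ r, defect T s b A (shift T (t r) x) = ∑ c, defect T t b A (shift T (s c) x) := by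
  simp only [defect, Finset.sum_add_distrib, shift_shift]
  congr 1
  rw [Finset.sum_comm]
  exact Finset.sum_congr rfl fun i _ => Finset.sum_congr rfl fun j _ => by rw [add_comm (s i)]

theorem measurable_ind {A : Set Ω} (hA : MeasurableSet A) : Measurable (ind A) :=
  measurable_const.indicator hA

variable {μ : Measure Ω} [IsProbabilityMeasure μ]

/-- The map preserves the measure and is mixing. -/
structure IsMixing (μ : Measure Ω) (T : Ω ≃ᵐ Ω) : Prop where
  mp : MeasurePreserving T μ μ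
  mixing : ∀ A B : Set Ω, MeasurableSet A → MeasurableSet B →
    Tendsto (fun n : ℕ => μ.real (A ∩ (T^[n]) ⁻¹' B)) atTop (𝓝 (μ.real A * μ.real B))

variable {T} (hT : IsMixing μ T)
include hT

theorem mp_shift (n : ℤ) : MeasurePreserving (shift T n) μ μ := by
  unfold shift
  induction n with
  | zero => simpa using MeasurePreserving.id μ
  | succ i hi => rw [zpow_add_one]; exact hi.comp hT.mp
  | pred i hi => rw [zpow_sub_one]; exact hi.comp (hT.mp.symm T)

theorem measurableSet_tr (n : ℤ) {E : Set Ω} (hE : MeasurableSet E) :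
    MeasurableSet (shift T n ⁻¹' E) := (mp_shift hT n).measurable hE

theorem real_tr (n : ℤ) {E : Set Ω} (hE : MeasurableSet E) :
    μ.real (shift T n ⁻¹' E) = μ.real E :=
  (mp_shift hT n).measureReal_preimage hE.nullMeasurableSet

theorem measurableSet_err {k : ℕ} (t : Fin k → ℤ) (b : ZMod 2) {A : Set Ω}
    (hA : MeasurableSet A) : MeasurableSet (err T t b A) := by
  have h : Measurable (defect T t b A) :=
    (measurable_of_countable (fun w : Fin k → ZMod 2 => b + ∑ i, w i)).comp
      (measurable_pi_lambda (fun x i => ind A (shift T (t i) x))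
        fun i => (measurable_ind hA).comp (mp_shift hT (t i)).measurable)
  exact h (MeasurableSet.singleton (0 : ZMod 2)).compl

theorem real_inter_tr {S E : Set Ω} (hS : MeasurableSet S) (hE : MeasurableSet E) (a b : ℤ) :
    μ.real (S ∩ shift T (a + b) ⁻¹' E) = μ.real (shift T (-a) ⁻¹' S ∩ shift T b ⁻¹' E) := by
  rw [← real_tr hT (-a) (hS.inter (measurableSet_tr hT _ hE)), Set.preimage_inter,
    preimage_shift_preimage, show a + b + -a = b by ring]

/-- Mixing for translates far apart. -/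
theorem tendsto_inter {ι : Type*} {l : Filter ι} {a b : ι → ℤ}
    (h : Tendsto (fun j => |a j - b j|) l atTop) {A B : Set Ω} (hA : MeasurableSet A)
    (hB : MeasurableSet B) :
    Tendsto (fun j => μ.real (shift T (a j) ⁻¹' A ∩ shift T (b j) ⁻¹' B)) l
      (𝓝 (μ.real A * μ.real B)) := by
  rw [Metric.tendsto_nhds]
  intro ε hε
  obtain ⟨L₁, hL₁⟩ := Metric.tendsto_atTop.1 (hT.mixing A B hA hB) ε hε
  obtain ⟨L₂, hL₂⟩ := Metric.tendsto_atTop.1 (hT.mixing B A hB hA) ε hε
  filter_upwards [h.eventually_ge_atTop ((L₁ : ℤ) + L₂)] with j hj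
  have key : ∀ (u v : ℤ) {P Q : Set Ω}, MeasurableSet P → MeasurableSet Q → u ≤ v →
      μ.real (shift T u ⁻¹' P ∩ shift T v ⁻¹' Q) = μ.real (P ∩ (T^[(v - u).toNat]) ⁻¹' Q) := by
    intro u v P Q hP hQ huv
    rw [← shift_natCast, Int.toNat_of_nonneg (by omega), show v - u = -u + v by ring,
      real_inter_tr hT hP hQ, neg_neg]
  rcases le_total (a j) (b j) with hab | hab
  · rw [key _ _ hA hB hab]
    refine hL₁ _ ?_
    rw [abs_of_nonpos (by omega)] at hj
    omega
  · rw [Set.inter_comm, key _ _ hB hA hab, mul_comm]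
    refine hL₂ _ ?_
    rw [abs_of_nonneg (by omega)] at hj
    omega

omit hT

/-- A measurable function with values in the unit interval. -/
structure IsUnitFun (u : Ω → ℝ) : Prop where
  meas : Measurable u
  nonneg : ∀ x, 0 ≤ u x
  le_one : ∀ x, u x ≤ 1

theorem IsUnitFun.integrable {u : Ω → ℝ} (h : IsUnitFun u) : Integrable u μ :=
  Integrable.of_bound h.meas.aestronglyMeasurable 1 (Eventually.of_forall fun x => by
    rw [Real.norm_eq_abs, abs_of_nonneg (h.nonneg x)]; exact h.le_one x)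

theorem IsUnitFun.mul {u v : Ω → ℝ} (hu : IsUnitFun u) (hv : IsUnitFun v) :
    IsUnitFun fun x => u x * v x :=
  ⟨hu.meas.mul hv.meas, fun x => mul_nonneg (hu.nonneg x) (hv.nonneg x),
    fun x => mul_le_one₀ (hu.le_one x) (hv.nonneg x) (hv.le_one x)⟩

theorem IsUnitFun.comp {u : Ω → ℝ} (hu : IsUnitFun u) {f : Ω → Ω} (hf : Measurable f) :
    IsUnitFun fun x => u (f x) :=
  ⟨hu.meas.comp hf, fun x => hu.nonneg _, fun x => hu.le_one _⟩

theorem indicator_comp_mul (f g : Ω → Ω) (P Q : Set Ω) (x : Ω) :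
    P.indicator (fun _ => (1 : ℝ)) (f x) * Q.indicator (fun _ => (1 : ℝ)) (g x) =
      (f ⁻¹' P ∩ g ⁻¹' Q).indicator (fun _ => (1 : ℝ)) x := by
  by_cases h1 : f x ∈ P <;> by_cases h2 : g x ∈ Q <;> simp [h1, h2]

theorem isUnitFun_indicator {E : Set Ω} (hE : MeasurableSet E) :
    IsUnitFun (E.indicator fun _ => (1 : ℝ)) :=
  ⟨measurable_const.indicator hE, fun x => Set.indicator_nonneg (fun _ _ => zero_le_one) x,
    fun x => Set.indicator_le_self' (fun _ _ => zero_le_one) x⟩

include hT

theorem integral_comp_shift {u : Ω → ℝ} (hu : Measurable u) (n : ℤ) :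
    ∫ x, u (shift T n x) ∂μ = ∫ x, u x ∂μ := by
  rw [← integral_map (mp_shift hT n).measurable.aemeasurable hu.aestronglyMeasurable,
    (mp_shift hT n).map_eq]

/-- Mixing for unit functions. -/
theorem tendsto_integral_mul {ι : Type*} {l : Filter ι} {a b : ι → ℤ}
    (h : Tendsto (fun j => |a j - b j|) l atTop) {u v : Ω → ℝ} (hu : IsUnitFun u)
    (hv : IsUnitFun v) :
    Tendsto (fun j => ∫ x, u (shift T (a j) x) * v (shift T (b j) x) ∂μ) l
      (𝓝 ((∫ x, u x ∂μ) * ∫ x, v x ∂μ)) := by
  -- staircase approximations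
  let st : (Ω → ℝ) → ℕ → Ω → ℝ := fun w N x =>
    (∑ m ∈ Finset.range N, {y | ((m : ℝ) + 1) ≤ w y * N}.indicator (fun _ => (1 : ℝ)) x) / N
  have hset : ∀ {w : Ω → ℝ}, IsUnitFun w → ∀ N m : ℕ,
      MeasurableSet {y | ((m : ℝ) + 1) ≤ w y * N} := fun hw N m =>
    measurableSet_le measurable_const (hw.meas.mul_const _)
  have hst : ∀ {w : Ω → ℝ}, IsUnitFun w → ∀ N : ℕ, 0 < N →
      IsUnitFun (st w N) ∧ ∀ x, |w x - st w N x| ≤ 1 / N := by
    intro w hw N hN
    have hN' : (0 : ℝ) < N := by exact_mod_cast hN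
    have hval : ∀ x, ∑ m ∈ Finset.range N,
        {y | ((m : ℝ) + 1) ≤ w y * N}.indicator (fun _ => (1 : ℝ)) x = (⌊w x * N⌋₊ : ℝ) := by
      intro x
      have hle : ⌊w x * N⌋₊ ≤ N := Nat.floor_le_of_le (by nlinarith [hw.le_one x])
      rw [← Finset.card_range ⌊w x * N⌋₊]
      rw [Finset.cast_card, ← Finset.sum_subset (Finset.range_subset_range.2 hle)]
      · refine Finset.sum_congr rfl fun m hm => Set.indicator_of_mem ?_ _
        have h1 := Finset.mem_range.1 hm
        have h2 : ((m + 1 : ℕ) : ℝ) ≤ w x * N :=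
          (Nat.cast_le.2 h1).trans (Nat.floor_le (mul_nonneg (hw.nonneg x) hN'.le))
        push_cast at h2
        exact h2
      · intro m hm hm'
        refine Set.indicator_of_notMem (fun hmem => hm' (Finset.mem_range.2 ?_)) _
        exact Nat.succ_le_iff.1 (Nat.le_floor (by push_cast; exact hmem))
    have hlt : ∀ x, w x * N < ⌊w x * N⌋₊ + 1 := fun x => Nat.lt_floor_add_one _
    have hge : ∀ x, (⌊w x * N⌋₊ : ℝ) ≤ w x * N := fun x =>
      Nat.floor_le (mul_nonneg (hw.nonneg x) hN'.le)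
    refine ⟨⟨?_, fun x => ?_, fun x => ?_⟩, fun x => ?_⟩
    · exact (Finset.measurable_sum _ fun m _ =>
        measurable_const.indicator (hset hw N m)).div_const _
    · simp only [st, hval]; positivity
    · simp only [st, hval]
      rw [div_le_one hN']
      nlinarith [hge x, hw.le_one x]
    · simp only [st, hval]
      rw [abs_le]
      constructor
      · rw [le_sub_iff_add_le, ← sub_eq_neg_add, sub_le_iff_le_add, div_le_iff₀ hN', add_mul,
          div_mul_cancel₀ _ hN'.ne']
        linarith [hge x]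
      · rw [sub_le_iff_le_add, ← add_div, le_div_iff₀ hN']
        linarith [hlt x]
  have hlim : ∀ N : ℕ, 0 < N →
      Tendsto (fun j => ∫ x, st u N (shift T (a j) x) * st v N (shift T (b j) x) ∂μ) l
        (𝓝 ((∫ x, st u N x ∂μ) * ∫ x, st v N x ∂μ)) := by
    intro N hN
    have e1 : ∀ {w : Ω → ℝ}, IsUnitFun w → ∫ x, st w N x ∂μ =
        (∑ m ∈ Finset.range N, μ.real {y | ((m : ℝ) + 1) ≤ w y * N}) / N := by
      intro w hw
      simp only [st]
      rw [integral_div, integral_finsetSum _ fun m _ => (integrable_const 1).indicator (hset hw N m)]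
      congr 1
      refine Finset.sum_congr rfl fun m _ => ?_
      rw [integral_indicator (hset hw N m), setIntegral_const, smul_eq_mul, mul_one]
    have e2 : ∀ p q : ℤ, ∫ x, st u N (shift T p x) * st v N (shift T q x) ∂μ =
        (∑ m ∈ Finset.range N, ∑ m' ∈ Finset.range N,
          μ.real (shift T p ⁻¹' {y | ((m : ℝ) + 1) ≤ u y * N} ∩
            shift T q ⁻¹' {y | ((m' : ℝ) + 1) ≤ v y * N})) / (N * N) := by
      intro p q
      have hm : ∀ m m', MeasurableSet (shift T p ⁻¹' {y | ((m : ℕ) : ℝ) + 1 ≤ u y * N} ∩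
          shift T q ⁻¹' {y | ((m' : ℕ) : ℝ) + 1 ≤ v y * N}) := fun m m' =>
        (measurableSet_tr hT p (hset hu N m)).inter (measurableSet_tr hT q (hset hv N m'))
      simp only [st, div_mul_div_comm, Finset.sum_mul_sum]
      rw [integral_div]
      congr 1
      simp only [indicator_comp_mul]
      rw [integral_finsetSum _ fun m _ => integrable_finsetSum _ fun m' _ =>
        (integrable_const (1 : ℝ)).indicator (hm m m')]
      refine Finset.sum_congr rfl fun m _ => ?_
      rw [integral_finsetSum _ fun m' _ => (integrable_const (1 : ℝ)).indicator (hm m m')]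
      refine Finset.sum_congr rfl fun m' _ => ?_
      rw [integral_indicator (hm m m'), setIntegral_const, smul_eq_mul, mul_one]
    simp only [e1 hu, e1 hv, e2, div_mul_div_comm, Finset.sum_mul_sum]
    exact (tendsto_finsetSum _ fun m _ => tendsto_finsetSum _ fun m' _ =>
      tendsto_inter hT h (hset hu N m) (hset hv N m')).div_const _
  rw [Metric.tendsto_nhds]
  intro ε hε
  obtain ⟨N, hN⟩ := exists_nat_gt (8 / ε)
  have hN0 : 0 < N := by exact_mod_cast (lt_trans (by positivity) hN : (0 : ℝ) < N)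
  have hN' : (1 : ℝ) / N < ε / 8 := by
    rw [div_lt_iff₀ (by exact_mod_cast hN0)]
    rw [div_lt_iff₀ hε] at hN
    linarith
  obtain ⟨hsu, du⟩ := hst hu N hN0
  obtain ⟨hsv, dv⟩ := hst hv N hN0
  have hbnd : ∀ {f g : Ω → ℝ}, Integrable f μ → Integrable g μ → (c : ℝ) → (∀ x, |f x - g x| ≤ c) →
      |∫ x, f x ∂μ - ∫ x, g x ∂μ| ≤ c := by
    intro f g hf hg c hc
    rw [← integral_sub hf hg]
    simpa [Real.norm_eq_abs] using norm_integral_le_of_norm_le_const (μ := μ)
      (Eventually.of_forall fun x => (Real.norm_eq_abs _).trans_le (hc x))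
  have b1 := hbnd hu.integrable hsu.integrable _ du
  have b2 := hbnd hv.integrable hsv.integrable _ dv
  have n1 : ∀ {w : Ω → ℝ}, IsUnitFun w → 0 ≤ ∫ x, w x ∂μ ∧ ∫ x, w x ∂μ ≤ 1 := fun hw =>
    ⟨integral_nonneg hw.nonneg, by
      simpa using integral_mono hw.integrable (integrable_const (μ := μ) 1) hw.le_one⟩
  filter_upwards [Metric.tendsto_nhds.1 (hlim N hN0) (ε / 8) (by positivity)] with j hj
  rw [Real.dist_eq] at hj ⊢
  have ma := (mp_shift hT (a j)).measurable
  have mb := (mp_shift hT (b j)).measurable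
  have b3 : |∫ x, u (shift T (a j) x) * v (shift T (b j) x) ∂μ -
      ∫ x, st u N (shift T (a j) x) * st v N (shift T (b j) x) ∂μ| ≤ 2 / N := by
    refine hbnd ((hu.comp ma).mul (hv.comp mb)).integrable
      ((hsu.comp ma).mul (hsv.comp mb)).integrable _ fun x => ?_
    calc |u (shift T (a j) x) * v (shift T (b j) x) -
          st u N (shift T (a j) x) * st v N (shift T (b j) x)|
        = |(u (shift T (a j) x) - st u N (shift T (a j) x)) * v (shift T (b j) x) +
            st u N (shift T (a j) x) * (v (shift T (b j) x) - st v N (shift T (b j) x))| := by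
          congr 1; ring
      _ ≤ _ := abs_add_le _ _
      _ ≤ 1 / N * 1 + 1 * (1 / N) := by
          rw [abs_mul, abs_mul, abs_of_nonneg (hv.nonneg _), abs_of_nonneg (hsu.nonneg _)]
          exact add_le_add (mul_le_mul (du _) (hv.le_one _) (hv.nonneg _) (by positivity))
            (mul_le_mul (hsu.le_one _) (dv _) (abs_nonneg _) zero_le_one)
      _ = 2 / N := by ring
  have h2N : (2 : ℝ) / N < ε / 4 := by
    rw [show (2 : ℝ) / N = 2 * (1 / N) by ring]; linarith
  rw [abs_le] at b1 b2 b3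
  rw [abs_lt] at hj ⊢
  constructor <;> nlinarith [(n1 hu).1, (n1 hu).2, (n1 hv).1, (n1 hv).2, (n1 hsu).1, (n1 hsu).2,
    (n1 hsv).1, (n1 hsv).2]

omit hT

/-- Bounded real sequences converge along ultrafilters. -/
theorem exists_ulim {ι : Type*} (U : Ultrafilter ι) (f : ι → ℝ) (a b : ℝ)
    (h : ∀ i, f i ∈ Set.Icc a b) : ∃ l ∈ Set.Icc a b, Tendsto f U (𝓝 l) := by
  obtain ⟨l, hl, hl'⟩ := isCompact_Icc.ultrafilter_le_nhds (U.map f)
    (le_principal_iff.2 (Filter.mem_map.2 (Eventually.of_forall h)))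
  exact ⟨l, hl, hl'⟩

/-- A sequence of sets has a weak limit along an ultrafilter. -/
theorem exists_weak_limit {ι : Type*} (U : Ultrafilter ι) (E : ι → Set Ω)
    (hE : ∀ i, MeasurableSet (E i)) :
    ∃ K : Ω → ℝ, IsUnitFun K ∧ ∀ g : Ω → ℝ, IsUnitFun g →
      Tendsto (fun i => ∫ x in E i, g x ∂μ) U (𝓝 (∫ x, g x * K x ∂μ)) := by
  classical
  let v : ι → Lp ℝ 2 μ := fun i => indicatorConstLp 2 (hE i) (measure_ne_top μ _) (1 : ℝ)
  have hv : ∀ i, ‖v i‖ ≤ 1 := fun i => by
    refine (norm_indicatorConstLp_le).trans ?_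
    rw [norm_one, one_mul]
    exact Real.rpow_le_one measureReal_nonneg measureReal_le_one (by norm_num)
  have hlim : ∀ g : Lp ℝ 2 μ, ∃ l, |l| ≤ ‖g‖ ∧
      Tendsto (fun i => inner ℝ (v i) g) U (𝓝 l) := fun g => by
    obtain ⟨l, hl, hl'⟩ := exists_ulim U (fun i => inner ℝ (v i) g) (-‖g‖) ‖g‖ fun i => by
      rw [Set.mem_Icc, ← abs_le]
      exact (abs_real_inner_le_norm _ _).trans (mul_le_of_le_one_left (norm_nonneg _) (hv i))
    exact ⟨l, abs_le.2 hl, hl'⟩
  choose L hL hL' using hlim
  let φ : Lp ℝ 2 μ →L[ℝ] ℝ := LinearMap.mkContinuous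
    { toFun := L
      map_add' := fun g h => tendsto_nhds_unique (hL' (g + h)) (by
        simpa [inner_add_right] using (hL' g).add (hL' h))
      map_smul' := fun c g => tendsto_nhds_unique (hL' (c • g)) (by
        simpa [inner_smul_right] using (hL' g).const_mul c) }
    1 fun g => by simpa using hL g
  let Kv : Lp ℝ 2 μ := (InnerProductSpace.toDual ℝ (Lp ℝ 2 μ)).symm φ
  have hKint : Integrable (⇑Kv) μ := (Lp.memLp Kv).integrable one_le_two
  have hKv : ∀ g : Lp ℝ 2 μ, Tendsto (fun i => inner ℝ (v i) g) U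
      (𝓝 (∫ x, (g : Ω → ℝ) x * (Kv : Ω → ℝ) x ∂μ)) := fun g => by
    have e : inner ℝ Kv g = L g := InnerProductSpace.toDual_symm_apply
    rw [L2.inner_def] at e
    simp only [RCLike.inner_apply, conj_trivial] at e
    rw [e]
    exact hL' g
  have hset : ∀ S, MeasurableSet S →
      Tendsto (fun i => μ.real (S ∩ E i)) U (𝓝 (∫ x in S, (Kv : Ω → ℝ) x ∂μ)) := by
    intro S hS
    have h := hKv (indicatorConstLp 2 hS (measure_ne_top μ _) (1 : ℝ))
    have e : ∫ x, (indicatorConstLp 2 hS (measure_ne_top μ _) (1 : ℝ) : Lp ℝ 2 μ) x *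
        (Kv : Ω → ℝ) x ∂μ = ∫ x in S, (Kv : Ω → ℝ) x ∂μ := by
      rw [← integral_indicator hS]
      refine integral_congr_ae ?_
      filter_upwards [indicatorConstLp_coeFn (hs := hS) (hμs := measure_ne_top μ _) (p := 2)
        (c := (1 : ℝ))] with x hx
      rw [hx]
      by_cases hxS : x ∈ S <;> simp [hxS]
    rw [e] at h
    refine h.congr fun i => ?_
    simp only [v]
    rw [L2.inner_indicatorConstLp_one, setIntegral_congr_ae (hE i)
      (indicatorConstLp_coeFn.mono fun x hx _ => hx), setIntegral_indicator hS]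
    simp [Set.inter_comm]
  have h0 : 0 ≤ᵐ[μ] (⇑Kv : Ω → ℝ) :=
    ae_nonneg_of_forall_setIntegral_nonneg hKint fun S hS _ =>
      ge_of_tendsto (hset S hS) (Eventually.of_forall fun i => measureReal_nonneg)
  have h1 : (⇑Kv : Ω → ℝ) ≤ᵐ[μ] fun _ => (1 : ℝ) := by
    have := ae_nonneg_of_forall_setIntegral_nonneg (f := fun x => 1 - (Kv : Ω → ℝ) x)
      ((integrable_const 1).sub hKint) fun S hS _ => by
      rw [integral_sub (integrable_const (1 : ℝ)).integrableOn hKint.integrableOn, setIntegral_const,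
        smul_eq_mul, mul_one, sub_nonneg]
      exact le_of_tendsto (hset S hS) (Eventually.of_forall fun i =>
        measureReal_mono Set.inter_subset_left)
    filter_upwards [this] with x hx
    simp only [Pi.zero_apply] at hx
    linarith
  let K : Ω → ℝ := fun x => max 0 (min 1 ((Kv : Ω → ℝ) x))
  have hKe : K =ᵐ[μ] (⇑Kv : Ω → ℝ) := by
    filter_upwards [h0, h1] with x hx0 hx1
    simp only [K, min_eq_right hx1]
    exact max_eq_right hx0
  refine ⟨K, ⟨measurable_const.max (measurable_const.min (Lp.stronglyMeasurable Kv).measurable),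
    fun x => le_max_left _ _, fun x => max_le zero_le_one (min_le_left _ _)⟩, fun g hg => ?_⟩
  have hg2 : MemLp g 2 μ := MemLp.of_bound hg.meas.aestronglyMeasurable 1
    (Eventually.of_forall fun x => by
      rw [Real.norm_eq_abs, abs_of_nonneg (hg.nonneg x)]; exact hg.le_one x)
  have e : ∫ x, (hg2.toLp g : Lp ℝ 2 μ) x * (Kv : Ω → ℝ) x ∂μ = ∫ x, g x * K x ∂μ := by
    refine integral_congr_ae ?_
    filter_upwards [hg2.coeFn_toLp, hKe] with x hx hx'
    rw [hx, hx']
  have h := hKv (hg2.toLp g)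
  rw [e] at h
  refine h.congr fun i => ?_
  simp only [v]
  rw [L2.inner_indicatorConstLp_one]
  exact setIntegral_congr_ae (hE i) (hg2.coeFn_toLp.mono fun x hx _ => hx)

end Vale.Agent.P102
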