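import Vale.Agent.P102.Basic

/-!
# P102: linear relations of circle valued functions

For a mixing map, if a circle valued function satisfies exact linear relations with arbitrarily
sparse exponents and coefficients `±1`, then it is almost everywhere constant.
-/

noncomputable section

namespace Vale.Agent.P102

open MeasureTheory Filter Topology Polynomial

variable {Ω : Type*} [MeasurableSpace Ω] (T : Ω ≃ᵐ Ω)

/-- Composition with the map, as a linear endomorphism. -/
def koop : Module.End ℤ (Ω → UnitAddCircle) := LinearMap.funLeft ℤ UnitAddCircle ⇑T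

/-- The action of an integer polynomial on circle valued functions. -/
def act (P : ℤ[X]) (θ : Ω → UnitAddCircle) : Ω → UnitAddCircle := aeval (koop T) P θ

theorem koop_pow (n : ℕ) (θ : Ω → UnitAddCircle) (x : Ω) :
    (koop T ^ n) θ x = θ (shift T (n : ℤ) x) := by
  rw [shift_natCast]
  induction n generalizing x with
  | zero => simp
  | succ n ih =>
    rw [pow_succ', Module.End.mul_apply, Function.iterate_succ_apply]
    exact ih (T x)

theorem act_add (P Q : ℤ[X]) (θ : Ω → UnitAddCircle) :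
    act T (P + Q) θ = act T P θ + act T Q θ := by simp [act]

theorem act_mul (P Q : ℤ[X]) (θ : Ω → UnitAddCircle) :
    act T (P * Q) θ = act T P (act T Q θ) := by simp [act]

theorem act_monomial (a : ℤ) (n : ℕ) (θ : Ω → UnitAddCircle) (x : Ω) :
    act T (monomial n a) θ x = a • θ (shift T (n : ℤ) x) := by
  simp [act, aeval_monomial, koop_pow]

theorem act_sum {ι : Type*} (s : Finset ι) (P : ι → ℤ[X]) (θ : Ω → UnitAddCircle) (x : Ω) :
    act T (∑ i ∈ s, P i) θ x = ∑ i ∈ s, act T (P i) θ x := by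
  simp [act, Finset.sum_apply]

theorem measurable_act (P : ℤ[X]) {μ : Measure Ω} [IsProbabilityMeasure μ] (hT : IsMixing μ T)
    {θ : Ω → UnitAddCircle} (hθ : Measurable θ) : Measurable (act T P θ) := by
  induction P using Polynomial.induction_on' with
  | add P Q hP hQ => rw [act_add]; exact hP.add hQ
  | monomial n a =>
    have h : act T (monomial n a) θ = fun x => a • θ (shift T (n : ℤ) x) :=
      funext (act_monomial T a n θ)
    rw [h]
    exact ((continuous_zsmul a).measurable.comp (hθ.comp (mp_shift hT _).measurable))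

variable {T} {μ : Measure Ω} [IsProbabilityMeasure μ] (hT : IsMixing μ T)

/-- The polynomials which send `θ` to an almost constant function. -/
def constIdeal (θ : Ω → UnitAddCircle) : Ideal ℤ[X] where
  carrier := {P | ∃ c, ∀ᵐ x ∂μ, act T P θ x = c}
  zero_mem' := ⟨0, by simp [act]⟩
  add_mem' := by
    rintro P Q ⟨c, hc⟩ ⟨d, hd⟩
    refine ⟨c + d, ?_⟩
    filter_upwards [hc, hd] with x hx hx'
    simp [act_add, hx, hx']
  smul_mem' := by
    rintro R P ⟨c, hc⟩
    simp only [smul_eq_mul, Set.mem_setOf_eq, act_mul]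
    induction R using Polynomial.induction_on' with
    | add R S hR hS =>
      obtain ⟨c₁, h₁⟩ := hR
      obtain ⟨c₂, h₂⟩ := hS
      refine ⟨c₁ + c₂, ?_⟩
      filter_upwards [h₁, h₂] with x hx hx'
      simp [act_add, hx, hx']
    | monomial n a =>
      refine ⟨a • c, ?_⟩
      filter_upwards [(mp_shift hT (n : ℤ)).quasiMeasurePreserving.ae hc] with x hx
      rw [act_monomial, hx]

theorem mem_constIdeal {θ : Ω → UnitAddCircle} {P : ℤ[X]} :
    P ∈ constIdeal hT θ ↔ ∃ c, ∀ᵐ x ∂μ, act T P θ x = c := Iff.rfl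

include hT

/-- A finitely valued function with a monic relation is almost constant. -/
theorem const_of_finite {θ : Ω → UnitAddCircle} (hθ : Measurable θ) {S : Finset UnitAddCircle}
    (hS : ∀ᵐ x ∂μ, θ x ∈ S) {P : ℤ[X]} (hP : P.Monic) {c₀ : UnitAddCircle}
    (hc₀ : ∀ᵐ x ∂μ, act T P θ x = c₀) : ∃ c, ∀ᵐ x ∂μ, θ x = c := by
  classical
  obtain ⟨x₀, hx₀⟩ := hS.exists
  have : Nonempty {v // v ∈ S} := ⟨⟨θ x₀, hx₀⟩⟩
  let cl : UnitAddCircle → {v // v ∈ S} := fun v => if h : v ∈ S then ⟨v, h⟩ else ⟨θ x₀, hx₀⟩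
  have hcl : ∀ v ∈ S, ((cl v : {v // v ∈ S}) : UnitAddCircle) = v := fun v hv => by simp [cl, hv]
  set L := P.natDegree
  have hall : ∀ᵐ x ∂μ, ∀ n : ℕ, θ (shift T (n : ℤ) x) ∈ S ∧ act T P θ (shift T (n : ℤ) x) = c₀ :=
    ae_all_iff.2 fun n => (mp_shift hT (n : ℤ)).quasiMeasurePreserving.ae (hS.and hc₀)
  set W : Ω → Fin L → {v // v ∈ S} := fun x l => cl (θ (shift T ((l : ℕ) : ℤ) x))
  have hphi : ∀ n : ℕ, ∃ φ : (Fin L → {v // v ∈ S}) → {v // v ∈ S},
      ∀ᵐ x ∂μ, θ (shift T (n : ℤ) x) = φ (W x) := by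
    intro n
    induction n using Nat.strong_induction_on with
    | _ n ih =>
      by_cases hn : n < L
      · refine ⟨fun w => w ⟨n, hn⟩, hall.mono fun x hx => ?_⟩
        exact (hcl _ (hx n).1).symm
      · choose φ hφ using fun l : Fin L => ih (n - L + l) (by omega)
        refine ⟨fun w => cl (c₀ - ∑ l : Fin L, P.coeff l • (φ l w : UnitAddCircle)), ?_⟩
        filter_upwards [hall, ae_all_iff.2 hφ] with x hx hxφ
        have h := (hx (n - L)).2
        rw [P.as_sum_range, act_sum, Finset.sum_range_succ] at h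
        simp only [act_monomial, shift_shift, ← Nat.cast_add] at h
        rw [hP.coeff_natDegree, one_smul, show L + (n - L) = n by omega] at h
        have e : ∑ l : Fin L, P.coeff l • (φ l (W x) : UnitAddCircle) =
            ∑ l ∈ Finset.range L, P.coeff l • θ (shift T ((l + (n - L) : ℕ) : ℤ) x) := by
          rw [← Fin.sum_univ_eq_sum_range
            (fun l => P.coeff l • θ (shift T ((l + (n - L) : ℕ) : ℤ) x))]
          exact Finset.sum_congr rfl fun l _ => by rw [← hxφ l, add_comm]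
        have h2 : c₀ - ∑ l : Fin L, P.coeff l • (φ l (W x) : UnitAddCircle) =
            θ (shift T (n : ℤ) x) := by
          rw [e, ← h, add_sub_cancel_left]
        rw [h2, hcl _ (hx n).1]
  choose φ hφ using hphi
  obtain ⟨ψ, hψ⟩ : ∃ ψ, ∃ᶠ n : ℕ in atTop, φ n = ψ := by
    obtain ⟨ψ, hψ⟩ := Finite.exists_infinite_fiber φ
    exact ⟨ψ, Nat.frequently_atTop_iff_infinite.2 (Set.infinite_coe_iff.1 hψ)⟩
  obtain ⟨n₀, hn₀⟩ := hψ.exists
  have hgap : Tendsto (fun n : ℕ => |(n₀ : ℤ) - (n : ℤ)|) atTop atTop := by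
    refine tendsto_atTop_mono (fun n => ?_)
      (tendsto_atTop_add_const_right atTop (-(n₀ : ℤ)) tendsto_natCast_atTop_atTop)
    rw [abs_sub_comm]
    exact le_trans (by linarith) (le_abs_self _)
  have h01 : ∀ v, μ.real (θ ⁻¹' {v}) = μ.real (θ ⁻¹' {v}) * μ.real (θ ⁻¹' {v}) := by
    intro v
    have hA := hθ (measurableSet_singleton v)
    refine (tendsto_nhds_unique_of_frequently_eq (tendsto_inter hT hgap hA hA) tendsto_const_nhds
      (hψ.mono fun n hn => ?_)).symm
    rw [measureReal_congr (show (shift T (n₀ : ℤ) ⁻¹' (θ ⁻¹' {v}) ∩ shift T (n : ℤ) ⁻¹' (θ ⁻¹' {v})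
      : Set Ω) =ᵐ[μ] shift T (n₀ : ℤ) ⁻¹' (θ ⁻¹' {v}) from ?_), real_tr hT _ hA]
    refine eventuallyEq_set.2 ?_
    filter_upwards [hφ n₀, hφ n] with x h1 h2
    rw [hn₀] at h1
    rw [hn, ← h1] at h2
    simp [h2]
  -- some fibre has positive measure
  by_contra hcon
  have hnull : ∀ v, μ.real (θ ⁻¹' {v}) = 0 := by
    intro v
    rcases mul_eq_zero.1 (show μ.real (θ ⁻¹' {v}) * (1 - μ.real (θ ⁻¹' {v})) = 0 by
      rw [mul_sub, mul_one, ← h01 v, sub_self]) with h | h
    · exact h
    · refine absurd ⟨v, ?_⟩ hcon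
      have h1 : μ.real (θ ⁻¹' {v})ᶜ = 0 := by
        rw [probReal_compl_eq_one_sub (hθ (measurableSet_singleton v))]; exact h
      have h2 := measure_eq_zero_iff_ae_notMem.1
        ((measureReal_eq_zero_iff (measure_ne_top μ _)).1 h1)
      filter_upwards [h2] with x hx
      simpa using hx
  have h2 : ∀ᵐ x ∂μ, ∀ v ∈ S, θ x ≠ v :=
    (ae_ball_iff S.countable_toSet).2 fun v _ => by
      have h := measure_eq_zero_iff_ae_notMem.1
        ((measureReal_eq_zero_iff (measure_ne_top μ _)).1 (hnull v))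
      filter_upwards [h] with x hx
      simpa using hx
  obtain ⟨x, hx1, hx2⟩ := (hS.and h2).exists
  exact hx2 _ hx1 rfl

/-- An eigenfunction of a power of a mixing map is almost constant. -/
theorem const_of_eigen {h : Ω → UnitAddCircle} (hh : Measurable h) {M : ℕ} (hM : 0 < M)
    {c : UnitAddCircle} (hc : ∀ᵐ x ∂μ, h (shift T (M : ℤ) x) = h x + c) :
    ∃ v, ∀ᵐ x ∂μ, h x = v := by
  have hn : ∀ n : ℕ, ∀ᵐ x ∂μ, h (shift T ((M * n : ℕ) : ℤ) x) = h x + n • c := by
    intro n
    induction n with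
    | zero => simp
    | succ n ih =>
      filter_upwards [(mp_shift hT ((M * n : ℕ) : ℤ)).quasiMeasurePreserving.ae hc, ih] with x h1 h2
      rw [shift_shift] at h1
      rw [show ((M * (n + 1) : ℕ) : ℤ) = (M : ℤ) + ((M * n : ℕ) : ℤ) by push_cast; ring, h1, h2,
        succ_nsmul, add_assoc]
  have hball : ∀ r : ℝ, 0 < r → ∀ v, μ.real (h ⁻¹' Metric.closedBall v r) = 0 ∨
      μ.real (h ⁻¹' Metric.closedBall v (2 * r)) = 1 := by
    intro r hr v
    set B := h ⁻¹' Metric.closedBall v r with hB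
    set B' := (h ⁻¹' Metric.closedBall v (2 * r))ᶜ with hB'
    have mB : MeasurableSet B := hh measurableSet_closedBall
    have mB' : MeasurableSet B' := (hh measurableSet_closedBall).compl
    have hgap : Tendsto (fun n : ℕ => |(0 : ℤ) - ((M * n : ℕ) : ℤ)|) atTop atTop := by
      refine tendsto_atTop_mono (fun n => ?_) tendsto_natCast_atTop_atTop
      rw [zero_sub, abs_neg, Nat.abs_cast]
      exact_mod_cast Nat.le_mul_of_pos_left n hM
    have hfreq : ∃ᶠ n : ℕ in atTop, ‖n • c‖ ≤ r := by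
      rw [frequently_atTop]
      intro N
      obtain ⟨q, hq⟩ := exists_nat_gt (1 / r)
      have hq0 : 0 < q := by exact_mod_cast (lt_trans (by positivity) hq : (0 : ℝ) < q)
      obtain ⟨j, hj, hj'⟩ := AddCircle.exists_norm_nsmul_le ((N + 1) • c) hq0
      refine ⟨j * (N + 1), ?_, ?_⟩
      · have := (Finset.mem_Icc.1 (by simpa using hj) : 1 ≤ j ∧ j ≤ q).1
        nlinarith
      · rw [mul_nsmul']
        refine hj'.trans ?_
        rw [div_le_iff₀ (by positivity)]
        rw [div_lt_iff₀ hr] at hq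
        push_cast
        nlinarith
    have h0 : μ.real B * μ.real B' = 0 := by
      refine tendsto_nhds_unique_of_frequently_eq (tendsto_inter hT hgap mB mB') tendsto_const_nhds
        (hfreq.mono fun n hnr => ?_)
      rw [measureReal_eq_zero_iff, measure_eq_zero_iff_ae_notMem]
      filter_upwards [hn n] with x hx
      simp only [Set.mem_inter_iff, Set.mem_preimage, shift_zero, hB, hB', Set.mem_compl_iff,
        Metric.mem_closedBall, not_and, not_not, hx]
      intro h1
      calc dist (h x + n • c) v ≤ dist (h x + n • c) (h x) + dist (h x) v := dist_triangle _ _ _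
        _ ≤ r + r := add_le_add (by rw [dist_eq_norm, add_sub_cancel_left]; exact hnr) h1
        _ = 2 * r := by ring
    rcases mul_eq_zero.1 h0 with h1 | h1
    · exact Or.inl h1
    · right
      rw [hB', probReal_compl_eq_one_sub (hh measurableSet_closedBall)] at h1
      linarith
  have hfull : ∀ m : ℕ, ∃ v, ∀ᵐ x ∂μ, dist (h x) v ≤ 2 * (1 / ((m : ℝ) + 1)) := by
    intro m
    set r := 1 / ((m : ℝ) + 1) with hr
    have hr0 : 0 < r := by positivity
    obtain ⟨s, -, hs, hcov⟩ :=
      (isCompact_univ (X := UnitAddCircle)).finite_cover_balls hr0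
    by_contra hcon
    have hzero : ∀ v, μ.real (h ⁻¹' Metric.closedBall v r) = 0 := by
      intro v
      refine (hball r hr0 v).resolve_right fun h1 => hcon ⟨v, ?_⟩
      have h2 : μ.real (h ⁻¹' Metric.closedBall v (2 * r))ᶜ = 0 := by
        rw [probReal_compl_eq_one_sub (hh measurableSet_closedBall), h1, sub_self]
      filter_upwards [measure_eq_zero_iff_ae_notMem.1
        ((measureReal_eq_zero_iff (measure_ne_top μ _)).1 h2)] with x hx
      simpa using hx
    have h3 : ∀ᵐ x ∂μ, ∀ v ∈ s, h x ∉ Metric.closedBall v r :=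
      (ae_ball_iff hs.countable).2 fun v _ => measure_eq_zero_iff_ae_notMem.1
        ((measureReal_eq_zero_iff (measure_ne_top μ _)).1 (hzero v))
    obtain ⟨x, hx⟩ := h3.exists
    obtain ⟨v, hv, hv'⟩ := Set.mem_iUnion₂.1 (hcov (Set.mem_univ (h x)))
    exact hx v hv (Metric.ball_subset_closedBall hv')
  choose v hv using hfull
  obtain ⟨x₀, hx₀⟩ := (ae_all_iff.2 hv).exists
  refine ⟨h x₀, (ae_all_iff.2 hv).mono fun x hx => ?_⟩
  refine dist_le_zero.1 (le_of_forall_pos_le_add fun ε hε => ?_)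
  obtain ⟨m, hm⟩ := exists_nat_gt (4 / ε)
  have h1 := dist_triangle_right (h x) (h x₀) (v m)
  have h2 : 4 * (1 / ((m : ℝ) + 1)) ≤ ε := by
    rw [mul_one_div, div_le_iff₀ (by positivity)]
    rw [div_lt_iff₀ hε] at hm
    nlinarith
  linarith [hx m, hx₀ m]

omit hT in
/-- An ideal of integer polynomials with all common roots on the unit circle. -/
theorem exists_cyclotomic_mem {I : Ideal ℤ[X]} {P₀ : ℤ[X]} (hP₀ : P₀ ∈ I) (hmon : P₀.Monic)
    (hroot : ∀ z : ℂ, (∀ P ∈ I, aeval z P = 0) → ‖z‖ = 1) :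
    ∃ N : ℤ, N ≠ 0 ∧ ∃ M : ℕ, 0 < M ∧ ∃ D : ℕ, C N * (X ^ M - 1) ^ D ∈ I := by
  classical
  -- common roots are roots of unity
  have hunit : ∀ z : ℂ, (∀ P ∈ I, aeval z P = 0) → ∃ n, 0 < n ∧ z ^ n = 1 := by
    intro z hz
    have hint : IsIntegral ℤ z := ⟨P₀, hmon, by simpa [aeval_def] using hz P₀ hP₀⟩
    set q := minpoly ℤ z
    have hq : q.Monic := minpoly.monic hint
    have hqz : z ∈ q.aroots ℂ := mem_aroots.2 ⟨hq.ne_zero, minpoly.aeval ℤ z⟩
    have hmahler : (q.map (Int.castRingHom ℂ)).mahlerMeasure = 1 := by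
      rw [mahlerMeasure_eq_leadingCoeff_mul_prod_roots, (hq.map _).leadingCoeff, norm_one, one_mul]
      refine Multiset.prod_eq_one fun a ha => ?_
      obtain ⟨w, hw, rfl⟩ := Multiset.mem_map.1 ha
      have hw' : aeval w q = 0 := by
        have := isRoot_of_mem_roots hw
        rwa [IsRoot.def, eval_map, ← algebraMap_int_eq, ← aeval_def] at this
      rw [hroot w fun P hP => ?_, max_self]
      obtain ⟨R, hR⟩ := minpoly.isIntegrallyClosed_dvd hint (hz P hP)
      rw [hR, map_mul, hw', zero_mul]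
    refine pow_eq_one_of_mahlerMeasure_eq_one hmahler ?_ hqz
    intro h0
    have := hroot z hz
    rw [h0, norm_zero] at this
    exact zero_ne_one this
  -- pass to rational coefficients
  set f : ℤ[X] →+* ℚ[X] := mapRingHom (Int.castRingHom ℚ)
  set J := I.map f
  have hclear : ∀ q ∈ J, ∃ N : ℤ, N ≠ 0 ∧ ∃ P ∈ I, f P = (N : ℚ[X]) * q := by
    intro q hq
    induction hq using Submodule.span_induction with
    | mem q hq =>
      obtain ⟨P, hP, rfl⟩ := hq
      exact ⟨1, one_ne_zero, P, hP, by simp⟩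
    | zero => exact ⟨1, one_ne_zero, 0, I.zero_mem, by simp⟩
    | add a b _ _ ha hb =>
      obtain ⟨N, hN, P, hP, e⟩ := ha
      obtain ⟨N', hN', P', hP', e'⟩ := hb
      refine ⟨N * N', mul_ne_zero hN hN', (N' : ℤ[X]) * P + (N : ℤ[X]) * P',
        I.add_mem (I.mul_mem_left _ hP) (I.mul_mem_left _ hP'), ?_⟩
      simp only [map_add, map_mul, map_intCast, e, e']
      push_cast
      ring
    | smul r a _ ha =>
      obtain ⟨N, hN, P, hP, e⟩ := ha
      obtain ⟨b, hb, hb'⟩ := IsLocalization.integerNormalization_spec (nonZeroDivisors ℤ) r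
      refine ⟨b * N, mul_ne_zero (nonZeroDivisors.ne_zero hb) hN,
        IsLocalization.integerNormalization (nonZeroDivisors ℤ) r * P, I.mul_mem_left _ hP, ?_⟩
      have hb'' : f (IsLocalization.integerNormalization (nonZeroDivisors ℤ) r) =
          (b : ℚ[X]) * r := by
        rw [← zsmul_eq_mul]
        simpa [f, algebraMap_int_eq] using hb'
      rw [map_mul, hb'', e, smul_eq_mul]
      push_cast
      ring
  set g := Submodule.IsPrincipal.generator J
  have hgJ : g ∈ J := Submodule.IsPrincipal.generator_mem J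
  have hdvd : ∀ P ∈ I, g ∣ f P := fun P hP =>
    (Submodule.IsPrincipal.mem_iff_generator_dvd J).1 (Ideal.mem_map_of_mem f hP)
  have hg0 : g ≠ 0 := by
    intro h0
    have := hdvd P₀ hP₀
    rw [h0, zero_dvd_iff] at this
    exact (hmon.map (Int.castRingHom ℚ)).ne_zero this
  set gC := g.map (algebraMap ℚ ℂ)
  have hgC : gC ≠ 0 := (Polynomial.map_ne_zero_iff (algebraMap ℚ ℂ).injective).2 hg0
  have hcommon : ∀ z ∈ gC.roots, ∀ P ∈ I, aeval z P = 0 := by
    intro z hz P hP
    obtain ⟨R, hR⟩ := hdvd P hP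
    have h1 : (aeval z) (f P) = 0 := by
      rw [hR, map_mul, aeval_def, ← eval_map, isRoot_of_mem_roots hz, zero_mul]
    simpa [f, algebraMap_int_eq, aeval_map_algebraMap, ← aeval_map_algebraMap ℚ z P] using h1
  choose ord hord0 hord using fun z : {z // z ∈ gC.roots.toFinset} =>
    hunit z (hcommon z (Multiset.mem_toFinset.1 z.2))
  set M := ∏ z, ord z
  have hM : 0 < M := Finset.prod_pos fun z _ => hord0 z
  set D := gC.natDegree
  have hne : ((X : ℂ[X]) ^ M - 1) ^ D ≠ 0 := pow_ne_zero _ (X_pow_sub_C_ne_zero hM 1)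
  have hdvdC : gC ∣ ((X : ℂ[X]) ^ M - 1) ^ D := by
    rw [IsAlgClosed.dvd_iff_roots_le_roots hgC hne, Multiset.le_iff_count]
    intro z
    by_cases hz : z ∈ gC.roots
    · have h1 : z ^ M = 1 := by
        obtain ⟨m, hm⟩ := Finset.dvd_prod_of_mem ord
          (Finset.mem_univ (⟨z, Multiset.mem_toFinset.2 hz⟩ : {z // z ∈ gC.roots.toFinset}))
        have h3 := hord (⟨z, Multiset.mem_toFinset.2 hz⟩ : {z // z ∈ gC.roots.toFinset})
        simp only at h3
        rw [show M = _ from hm, pow_mul, h3, one_pow]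
      have h2 : 1 ≤ ((X : ℂ[X]) ^ M - 1).roots.count z := by
        have hne1 : (X : ℂ[X]) ^ M - 1 ≠ 0 := X_pow_sub_C_ne_zero hM 1
        rw [Multiset.one_le_count_iff_mem, mem_roots hne1]
        simp [IsRoot.def, h1]
      rw [roots_pow, Multiset.count_nsmul]
      calc gC.roots.count z ≤ Multiset.card gC.roots := Multiset.count_le_card _ _
        _ ≤ D * 1 := by rw [mul_one]; exact card_roots' gC
        _ ≤ _ := Nat.mul_le_mul le_rfl h2
    · rw [Multiset.count_eq_zero.2 hz]; exact Nat.zero_le _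
  have hdvdQ : g ∣ ((X : ℚ[X]) ^ M - 1) ^ D := by
    rw [← map_dvd_map' (algebraMap ℚ ℂ)]
    simpa using hdvdC
  obtain ⟨N, hN, P, hP, e⟩ := hclear _ (J.mem_of_dvd hdvdQ hgJ)
  refine ⟨N, hN, M, hM, D, ?_⟩
  have : P = C N * (X ^ M - 1) ^ D := by
    apply map_injective (Int.castRingHom ℚ) Int.cast_injective
    change f P = f _
    rw [e]
    simp [f]
  exact this ▸ hP

/-- A function with sparse exact relations is almost constant. -/
theorem const_of_relations {θ : Ω → UnitAddCircle} (hθ : Measurable θ) {P₀ : ℤ[X]}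
    (hP₀ : P₀ ∈ constIdeal hT θ) (hmon : P₀.Monic)
    (hroot : ∀ z : ℂ, (∀ P ∈ constIdeal hT θ, aeval z P = 0) → ‖z‖ = 1) :
    ∃ c, ∀ᵐ x ∂μ, θ x = c := by
  classical
  obtain ⟨N, hN, M, hM, D, hmem⟩ := exists_cyclotomic_mem hP₀ hmon hroot
  -- first remove the integer factor
  set h := act T ((X ^ M - 1) ^ D) θ with hh
  obtain ⟨c, hc⟩ := (mem_constIdeal hT).1 hmem
  obtain ⟨c₀, hc₀⟩ := (mem_constIdeal hT).1
    ((constIdeal hT θ).mul_mem_left ((X ^ M - 1) ^ D) hP₀)
  have hfin : {u : UnitAddCircle | N • u = c}.Finite := by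
    rcases Set.eq_empty_or_nonempty {u : UnitAddCircle | N • u = c} with h0 | ⟨u₀, hu₀⟩
    · rw [h0]; exact Set.finite_empty
    · refine ((AddCircle.finite_torsion (1 : ℝ) (Int.natAbs_pos.2 hN)).image (· + u₀)).subset ?_
      intro u hu
      refine ⟨u - u₀, ?_, by simp⟩
      have hu' : N • (u - u₀) = 0 := by
        rw [zsmul_sub, hu, show N • u₀ = c from hu₀]; simp
      rcases Int.natAbs_eq N with e | e <;> rw [e] at hu' <;> simpa using hu'
  have hval : ∀ᵐ x ∂μ, h x ∈ hfin.toFinset := by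
    filter_upwards [hc] with x hx
    rw [Set.Finite.mem_toFinset, Set.mem_setOf_eq]
    rw [act_mul, ← monomial_zero_left, act_monomial] at hx
    simpa using hx
  obtain ⟨v, hv⟩ := const_of_finite hT (measurable_act T _ hT hθ) hval hmon (c₀ := c₀)
    (by
      filter_upwards [hc₀] with x hx
      rw [← hx, mul_comm, act_mul])
  have hD : (X ^ M - 1) ^ D ∈ constIdeal hT θ := ⟨v, hv⟩
  -- then lower the exponent
  clear hv hval hc₀ hc hfin hh h hmem
  induction D with
  | zero =>
    obtain ⟨w, hw⟩ := (mem_constIdeal hT).1 hD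
    exact ⟨w, by simpa [act] using hw⟩
  | succ D ih =>
    obtain ⟨w, hw⟩ := (mem_constIdeal hT).1 hD
    refine ih ?_
    refine (mem_constIdeal hT).2 (const_of_eigen hT (measurable_act T _ hT hθ) hM (c := w) ?_)
    filter_upwards [hw] with x hx
    have e2 : ∀ u : Ω → UnitAddCircle, act T (X ^ M - 1) u x = u (shift T (M : ℤ) x) - u x := by
      intro u
      rw [sub_eq_add_neg, act_add, Pi.add_apply, ← monomial_one_right_eq_X_pow, act_monomial,
        one_smul, sub_eq_add_neg]
      simp [act]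
    rw [pow_succ', act_mul, e2, sub_eq_iff_eq_add'] at hx
    exact hx

end Vale.Agent.P102
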