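import Vale.Agent.P102.Exact

/-!
# P102: eliminating all but one set from parity relations

A parity relation among translates of `k` different sets, holding approximately along sparse
configurations, yields by a determinant identity over `ZMod 2` an approximate parity relation among
`k!` far separated translates of any one of the sets.
-/

noncomputable section

namespace Vale.Agent.P102

open MeasureTheory Filter Topology

variable {Ω : Type*} [MeasurableSpace Ω] {T : Ω ≃ᵐ Ω} {μ : Measure Ω} [IsProbabilityMeasure μ]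

/-- The defect of a parity relation among several sets. -/
def defectMulti (T : Ω ≃ᵐ Ω) {k : ℕ} (t : Fin k → ℤ) (b : ZMod 2) (A : Fin k → Set Ω) (x : Ω) :
    ZMod 2 :=
  b + ∑ i, ind (A i) (shift T (t i) x)

/-- The sum of the exponents of a permutation. -/
def expo {k : ℕ} (t : Fin k → Fin k → ℤ) (σ : Equiv.Perm (Fin k)) : ℤ := ∑ i, t i (σ i)

/-- The cofactor expansion along one column, over `ZMod 2`. -/
theorem sum_defectMulti {k : ℕ} (t : Fin k → Fin k → ℤ) (b : Fin k → ZMod 2)
    (A : Fin k → Set Ω) (c : Fin k) (x : Ω) :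
    ∑ σ : Equiv.Perm (Fin k), defectMulti T (t (σ.symm c)) (b (σ.symm c)) A
        (shift T (expo t σ - t (σ.symm c) c) x) =
      (∑ σ : Equiv.Perm (Fin k), b (σ.symm c)) +
        ∑ σ : Equiv.Perm (Fin k), ind (A c) (shift T (expo t σ) x) := by
  classical
  simp only [defectMulti, Finset.sum_add_distrib, shift_shift]
  congr 1
  rw [Finset.sum_comm, ← Finset.add_sum_erase _ _ (Finset.mem_univ c)]
  have hz : ∀ d ∈ Finset.univ.erase c, ∑ σ : Equiv.Perm (Fin k),
      ind (A d) (shift T (t (σ.symm c) d + (expo t σ - t (σ.symm c) c)) x) = 0 := by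
    intro d hd
    have hdc : d ≠ c := Finset.ne_of_mem_erase hd
    refine Finset.sum_involution (fun σ _ => Equiv.swap c d * σ) (fun σ _ => ?_) (fun σ _ _ h => ?_)
      (fun σ _ => Finset.mem_univ _) (fun σ _ => by rw [← mul_assoc, Equiv.swap_mul_self, one_mul])
    · have h1 : (Equiv.swap c d * σ).symm c = σ.symm d := by
        rw [Equiv.symm_apply_eq, Equiv.Perm.mul_apply, Equiv.apply_symm_apply,
          Equiv.swap_apply_right]
      have hne : σ.symm c ≠ σ.symm d := fun e => hdc (σ.symm.injective e).symm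
      have h2 : expo t (Equiv.swap c d * σ) - expo t σ =
          (t (σ.symm c) d - t (σ.symm c) c) + (t (σ.symm d) c - t (σ.symm d) d) := by
        rw [expo, expo, ← Finset.sum_sub_distrib,
          Finset.sum_eq_add (σ.symm c) (σ.symm d) hne ?_ (by simp) (by simp)]
        · simp
        · rintro i - ⟨hi, hi'⟩
          rw [Equiv.Perm.mul_apply, Equiv.swap_apply_of_ne_of_ne, sub_self]
          · exact fun e => hi (by rw [← e, Equiv.symm_apply_apply])
          · exact fun e => hi' (by rw [← e, Equiv.symm_apply_apply])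
      rw [h1, show t (σ.symm d) d + (expo t (Equiv.swap c d * σ) - t (σ.symm d) c) =
        t (σ.symm c) d + (expo t σ - t (σ.symm c) c) by linarith]
      exact CharTwo.add_self_eq_zero _
    · exact hdc (Equiv.swap_eq_one_iff.1 (mul_eq_right.1 h)).symm
  rw [Finset.sum_eq_zero hz, add_zero]
  exact Finset.sum_congr rfl fun σ _ => by rw [add_sub_cancel]

/-- Sparse configurations have well separated permutation exponents. -/
theorem exists_sparse {k : ℕ} (tau : ℕ → Fin k → ℤ)
    (htau : ∀ (L : ℕ) i j, i ≠ j → (L : ℤ) ≤ |tau L i - tau L j|) (M : ℕ) :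
    ∃ n : Fin k → ℕ, (∀ i, M ≤ n i) ∧ ∀ σ σ' : Equiv.Perm (Fin k), σ ≠ σ' →
      (M : ℤ) ≤ |expo (fun i => tau (n i)) σ - expo (fun i => tau (n i)) σ'| := by
  classical
  let sp : ℕ → ℕ := fun L => ∑ c, (tau L c).natAbs
  let S : ℕ → ℕ := fun i => Nat.rec 0 (fun _ s => s + sp (M + 2 * s)) i
  have hS : ∀ i, S i = ∑ i' ∈ Finset.range i, sp (M + 2 * S i') := by
    intro i
    induction i with
    | zero => simp [S]
    | succ i ih => rw [Finset.sum_range_succ, ← ih]
  let n : Fin k → ℕ := fun i => M + 2 * S i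
  refine ⟨n, fun i => Nat.le_add_right _ _, fun σ σ' hne => ?_⟩
  obtain ⟨i₀, hi₀, hmax⟩ : ∃ i₀, σ i₀ ≠ σ' i₀ ∧ ∀ i, σ i ≠ σ' i → i ≤ i₀ := by
    obtain ⟨i, hi⟩ : ∃ i, σ i ≠ σ' i := not_forall.1 fun h => hne (Equiv.ext h)
    have hs : (Finset.univ.filter fun i => σ i ≠ σ' i).Nonempty := ⟨i, by simp [hi]⟩
    exact ⟨_, (Finset.mem_filter.1 (Finset.max'_mem _ hs)).2,
      fun j hj => Finset.le_max' _ _ (by simp [hj])⟩
  set d : Fin k → ℤ := fun i => tau (n i) (σ i) - tau (n i) (σ' i) with hd
  have hexp : expo (fun i => tau (n i)) σ - expo (fun i => tau (n i)) σ' =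
      d i₀ + ∑ i ∈ Finset.univ.filter (· < i₀), d i := by
    rw [expo, expo, ← Finset.sum_sub_distrib, ← Finset.add_sum_erase _ _ (Finset.mem_univ i₀)]
    congr 1
    refine (Finset.sum_subset (fun i hi => by
      simp only [Finset.mem_filter, Finset.mem_erase, Finset.mem_univ, true_and, and_true] at hi ⊢
      exact ne_of_lt hi) fun i hi hi' => ?_).symm
    simp only [Finset.mem_filter, Finset.mem_erase, Finset.mem_univ, true_and, and_true, not_lt]
      at hi hi'
    by_contra hne'
    exact hi (le_antisymm (hmax i fun e => hne' (by simp [hd, e])) hi')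
  have hbig : (n i₀ : ℤ) ≤ |d i₀| := htau _ _ _ hi₀
  have hrest : |∑ i ∈ Finset.univ.filter (· < i₀), d i| ≤ 2 * (Nat.cast (S i₀) : ℤ) := by
    refine (Finset.abs_sum_le_sum_abs _ _).trans ?_
    have h1 : ∀ i, |d i| ≤ 2 * (sp (M + 2 * S i) : ℤ) := by
      intro i
      refine (abs_sub _ _).trans ?_
      have h2 : ∀ c, |tau (n i) c| ≤ (sp (n i) : ℤ) := fun c => by
        rw [Int.abs_eq_natAbs]
        exact_mod_cast Finset.single_le_sum (f := fun c => (tau (n i) c).natAbs)
          (fun _ _ => Nat.zero_le _) (Finset.mem_univ c)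
      calc |tau (n i) (σ i)| + |tau (n i) (σ' i)| ≤ (sp (n i) : ℤ) + sp (n i) :=
            add_le_add (h2 _) (h2 _)
        _ = _ := by simp only [n]; ring
    refine (Finset.sum_le_sum fun i _ => h1 i).trans ?_
    rw [← Finset.mul_sum, hS i₀]
    push_cast
    refine mul_le_mul_of_nonneg_left (le_of_eq ?_) (by norm_num)
    refine Finset.sum_nbij' (fun i : Fin k => (i : ℕ))
      (fun i => if h : i < k then ⟨i, h⟩ else i₀) ?_ ?_ ?_ ?_ ?_
    · intro i hi; simpa using hi
    · intro i hi
      have := Finset.mem_range.1 hi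
      simp only [dif_pos (show i < k by omega)]
      exact Finset.mem_filter.2 ⟨Finset.mem_univ _, this⟩
    · intro i hi; simp
    · intro i hi
      have := Finset.mem_range.1 hi
      simp [show i < k by omega]
    · intro i hi; rfl
  rw [hexp]
  have h3 := abs_sub_abs_le_abs_add (d i₀) (∑ i ∈ Finset.univ.filter (· < i₀), d i)
  simp only [n] at hbig
  push_cast at hbig
  linarith

variable (hT : IsMixing μ T)
include hT

/-- Parity relations among several sets are not almost exact. -/
theorem parity_gap_multi {k : ℕ} (tau : ℕ → Fin k → ℤ)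
    (htau : ∀ (L : ℕ) i j, i ≠ j → (L : ℤ) ≤ |tau L i - tau L j|) (b : ℕ → ZMod 2)
    (A : Fin k → Set Ω) (hA : ∀ i, MeasurableSet (A i)) (η : ℝ)
    (hb : ∀ L, μ.real {x | defectMulti T (tau L) (b L) A x ≠ 0} ≤ η)
    (hη : 400 * (k.factorial : ℝ) ^ 7 * η ≤ 1) (c : Fin k) :
    μ.real (A c) ≤ 4 * (k.factorial * η) ∨ 1 - 4 * (k.factorial * η) ≤ μ.real (A c) := by
  classical
  set N := Fintype.card (Equiv.Perm (Fin k)) with hN
  have hNk : N = k.factorial := by rw [hN, Fintype.card_perm, Fintype.card_fin]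
  let e := Fintype.equivFin (Equiv.Perm (Fin k))
  choose n hnge hn using exists_sparse tau htau
  let tau' : ℕ → Fin N → ℤ := fun M s => expo (fun i => tau (n M i)) (e.symm s)
  let b' : ℕ → ZMod 2 := fun M => ∑ σ : Equiv.Perm (Fin k), b (n M (σ.symm c))
  have herr : ∀ M, μ.real (err T (tau' M) (b' M) (A c)) ≤ (k.factorial : ℝ) * η := by
    intro M
    refine (measureReal_mono (s₂ := ⋃ σ : Equiv.Perm (Fin k),
      shift T (expo (fun i => tau (n M i)) σ - tau (n M (σ.symm c)) c) ⁻¹'
        {x | defectMulti T (tau (n M (σ.symm c))) (b (n M (σ.symm c))) A x ≠ 0})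
      fun x hx => ?_).trans ((measureReal_iUnion_fintype_le _).trans ?_)
    · by_contra hcon
      simp only [Set.mem_iUnion, Set.mem_preimage, Set.mem_setOf_eq, not_exists, not_not] at hcon
      refine hx ?_
      have h := sum_defectMulti (T := T) (fun i => tau (n M i)) (fun i => b (n M i)) A c x
      simp only [hcon, Finset.sum_const_zero] at h
      rw [defect, h]
      congr 1
      exact Equiv.sum_comp e.symm
        fun σ => ind (A c) (shift T (expo (fun i => tau (n M i)) σ) x)
    · refine (Finset.sum_le_sum fun σ _ => (le_of_eq ?_).trans (hb (n M (σ.symm c)))).trans_eq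
        (by rw [Finset.sum_const, Finset.card_univ, ← hN, hNk, nsmul_eq_mul])
      exact (mp_shift hT _).measureReal_preimage (by
        have h : Measurable (defectMulti T (tau (n M (σ.symm c))) (b (n M (σ.symm c))) A) :=
          (measurable_of_countable (fun w : Fin k → ZMod 2 => b (n M (σ.symm c)) + ∑ i, w i)).comp
            (measurable_pi_lambda (fun x i => ind (A i) (shift T (tau (n M (σ.symm c)) i) x))
              fun i => (measurable_ind (hA i)).comp (mp_shift hT _).measurable)
        exact (h (MeasurableSet.singleton (0 : ZMod 2)).compl).nullMeasurableSet)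
  set U : Ultrafilter ℕ := Ultrafilter.of atTop
  have hUle : (U : Filter ℕ) ≤ atTop := Ultrafilter.of_le atTop
  obtain ⟨b₀, hb₀⟩ : ∃ b₀, ∀ᶠ M in (U : Filter ℕ), b' M = b₀ := by
    obtain ⟨b₀, hb₀⟩ := Ultrafilter.eq_pure_of_finite (U.map b')
    refine ⟨b₀, ?_⟩
    have : ({b₀} : Set (ZMod 2)) ∈ U.map b' := by simp [hb₀]
    exact this
  have hgap : ∀ r s, r ≠ s → Tendsto (fun M => |tau' M r - tau' M s|) U atTop := fun r s hrs =>
    (tendsto_atTop_mono (fun M => hn M _ _ fun h => hrs (e.symm.injective h))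
      tendsto_natCast_atTop_atTop).mono_left hUle
  obtain ⟨l, -, hl⟩ := exists_ulim U (fun M => μ.real (err T (tau' M) b₀ (A c))) 0 1
    fun j => ⟨measureReal_nonneg, measureReal_le_one⟩
  have hle : l ≤ (k.factorial : ℝ) * η := le_of_tendsto hl (hb₀.mono fun M hM => hM ▸ herr M)
  exact nearly_trivial hT hgap (by rw [hNk]; exact k.factorial_pos) b₀ (hA c)
    (by rw [hNk]; linarith [show 400 * (k.factorial : ℝ) ^ 6 * ((k.factorial : ℝ) * η) =
      400 * (k.factorial : ℝ) ^ 7 * η by ring]) ⟨l, hle, hl⟩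

end Vale.Agent.P102
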