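import Vale.Agent.P102.CircleAlgebra
import Vale.Agent.P102.Determinant

/-!
# P102: approximate linear relations of circle valued functions

If linear relations with coefficients `±1` among far separated translates of circle valued functions
hold with errors tending to `0` in measure, then the functions are almost everywhere constant.
-/

noncomputable section

namespace Vale.Agent.P102

open MeasureTheory Filter Topology Polynomial

variable {Ω : Type*} [MeasurableSpace Ω] {T : Ω ≃ᵐ Ω} {μ : Measure Ω} [IsProbabilityMeasure μ]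

/-- The representative of a point of the circle in `[-1/2, 1/2)`. -/
def rep (y : UnitAddCircle) : ℝ := (AddCircle.equivIco (1 : ℝ) (-1 / 2) y : ℝ)

theorem measurable_rep : Measurable rep :=
  measurable_subtype_coe.comp (AddCircle.measurableEquivIco (1 : ℝ) (-1 / 2)).measurable

theorem coe_rep (y : UnitAddCircle) : ((rep y : ℝ) : UnitAddCircle) = y := AddCircle.coe_equivIco

theorem abs_rep_le (y : UnitAddCircle) : |rep y| ≤ 1 / 2 := by
  have h := (AddCircle.equivIco (1 : ℝ) (-1 / 2) y).2
  rw [Set.mem_Ico] at h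
  unfold rep
  rw [abs_le]
  constructor <;> linarith [h.1, h.2]

theorem abs_rep (y : UnitAddCircle) : |rep y| = ‖y‖ := by
  have h := (AddCircle.norm_coe_eq_abs_iff (1 : ℝ) (x := rep y) one_ne_zero).2
    (by rw [abs_one]; exact abs_rep_le y)
  rw [coe_rep] at h
  exact h.symm

theorem integrable_of_abs_le {φ : Ω → ℝ} (hφ : Measurable φ) (C : ℝ) (h : ∀ x, |φ x| ≤ C) :
    Integrable φ μ :=
  Integrable.of_bound hφ.aestronglyMeasurable C
    (Eventually.of_forall fun x => by rw [Real.norm_eq_abs]; exact h x)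

theorem integral_indicator_one' {S : Set Ω} (hS : MeasurableSet S) :
    ∫ x, S.indicator (fun _ => (1 : ℝ)) x ∂μ = μ.real S := by
  rw [integral_indicator hS, setIntegral_const, smul_eq_mul, mul_one]

theorem integral_affine {f g : Ω → ℝ} (hf : Integrable f μ) (hg : Integrable g μ) (a e : ℝ) :
    ∫ x, (f x + (a * g x + e)) ∂μ = (∫ x, f x ∂μ) + (a * (∫ x, g x ∂μ) + e) := by
  have h1 : Integrable (fun x => a * g x + e) μ := (hg.const_mul a).add (integrable_const e)
  rw [integral_add hf h1, integral_add (hg.const_mul a) (integrable_const e), integral_const_mul]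
  simp

variable (hT : IsMixing μ T)
include hT

theorem tendsto_integral_mul_centred {ι : Type*} {l : Filter ι} {a b : ι → ℤ}
    (h : Tendsto (fun j => |a j - b j|) l atTop) {γ : Ω → ℝ} (hγ : Measurable γ)
    (hb : ∀ x, |γ x| ≤ 1 / 2) :
    Tendsto (fun j => ∫ x, γ (shift T (a j) x) * γ (shift T (b j) x) ∂μ) l
      (𝓝 ((∫ x, γ x ∂μ) * ∫ x, γ x ∂μ)) := by
  set u : Ω → ℝ := fun x => γ x + 1 / 2 with hu
  have hu' : IsUnitFun u :=
    ⟨hγ.add_const _, fun x => by simp only [hu]; linarith [(abs_le.1 (hb x)).1],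
      fun x => by simp only [hu]; linarith [(abs_le.1 (hb x)).2]⟩
  have hi : Integrable γ μ := integrable_of_abs_le hγ _ hb
  have hint : ∫ x, u x ∂μ = ∫ x, γ x ∂μ + 1 / 2 := by
    rw [hu, integral_add hi (integrable_const _)]; simp
  have hmain := tendsto_integral_mul hT h hu' hu'
  have key : ∀ j, ∫ x, γ (shift T (a j) x) * γ (shift T (b j) x) ∂μ =
      ∫ x, u (shift T (a j) x) * u (shift T (b j) x) ∂μ - (∫ x, γ x ∂μ + 1 / 4) := by
    intro j
    have ma := (mp_shift hT (a j)).measurable
    have mb := (mp_shift hT (b j)).measurable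
    have i1 : Integrable (fun x => γ (shift T (a j) x)) μ :=
      integrable_of_abs_le (hγ.comp ma) _ fun x => hb _
    have i2 : Integrable (fun x => γ (shift T (b j) x)) μ :=
      integrable_of_abs_le (hγ.comp mb) _ fun x => hb _
    have i12 : Integrable (fun x => γ (shift T (a j) x) * γ (shift T (b j) x)) μ :=
      integrable_of_abs_le ((hγ.comp ma).mul (hγ.comp mb)) (1 / 2 * (1 / 2)) fun x => by
        rw [abs_mul]; exact mul_le_mul (hb _) (hb _) (abs_nonneg _) (by norm_num)
    have e : ∀ x, u (shift T (a j) x) * u (shift T (b j) x) =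
        γ (shift T (a j) x) * γ (shift T (b j) x) +
          (1 / 2 * (γ (shift T (a j) x) + γ (shift T (b j) x)) + 1 / 4) := fun x => by
      simp only [hu]; ring
    simp only [e]
    rw [integral_affine i12 (g := fun x => γ (shift T (a j) x) + γ (shift T (b j) x)) (i1.add i2),
      integral_add i1 i2, integral_comp_shift hT hγ, integral_comp_shift hT hγ]
    ring
  simp only [key]
  convert hmain.sub_const (∫ x, γ x ∂μ + 1 / 4) using 2
  rw [hint]
  ring

/-- A slightly noisy function whose signed sums are almost constant is constant. -/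
theorem const_of_small {k : ℕ} (hk : 1 ≤ k) (ε : Fin k → ℤ) (hε : ∀ r, ε r = 1 ∨ ε r = -1)
    {tau : ℕ → Fin k → ℤ}
    (hgap : ∀ r c, r ≠ c → Tendsto (fun j => |tau j r - tau j c|) atTop atTop)
    {Y : Ω → UnitAddCircle} (hY : Measurable Y) (C : ℕ → UnitAddCircle)
    (hW : ∀ δ : ℝ, 0 < δ → Tendsto (fun j => μ.real
      {x | δ ≤ ‖∑ r, ε r • Y (shift T (tau j r) x) - C j‖}) atTop (𝓝 0))
    (hsmall : μ.real {x | 1 / (32 * (k : ℝ)) ≤ ‖Y x‖} ≤ 1 / (512 * (k : ℝ) ^ 5)) :
    ∃ v, ∀ᵐ x ∂μ, Y x = v := by
  classical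
  have hk1 : (1 : ℝ) ≤ k := by exact_mod_cast hk
  set γ : Ω → ℝ := fun x => rep (Y x) with hγdef
  have hγ : Measurable γ := measurable_rep.comp hY
  have hγb : ∀ x, |γ x| ≤ 1 / 2 := fun x => abs_rep_le _
  have hγn : ∀ x, |γ x| = ‖Y x‖ := fun x => abs_rep _
  have hγi : Integrable γ μ := integrable_of_abs_le hγ _ hγb
  set m := ∫ x, γ x ∂μ with hm
  set q := ∫ x, γ x * γ x ∂μ with hq
  have hγ2 : Integrable (fun x => γ x * γ x) μ :=
    integrable_of_abs_le (hγ.mul hγ) (1 / 2 * (1 / 2)) fun x => by
      rw [abs_mul]; exact mul_le_mul (hγb _) (hγb _) (abs_nonneg _) (by norm_num)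
  have hvar : ∫ x, (γ x - m) * (γ x - m) ∂μ = q - m ^ 2 := by
    have e : ∀ x, (γ x - m) * (γ x - m) = γ x * γ x + (-(2 * m) * γ x + m ^ 2) := fun x => by ring
    simp only [e]
    rw [integral_affine hγ2 hγi, ← hm, ← hq]
    ring
  have hv0 : 0 ≤ q - m ^ 2 := hvar ▸ integral_nonneg fun x => mul_self_nonneg _
  -- the bad set
  set B : Set Ω := {x | 1 / (8 * (k : ℝ)) < ‖Y x‖} with hBdef
  have hB : MeasurableSet B := measurableSet_lt measurable_const hY.norm
  set p := μ.real B with hp
  have hp0 : 0 ≤ p := measureReal_nonneg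
  have h32 : (1 : ℝ) / (32 * k) ≤ 1 / (8 * k) := by gcongr; norm_num
  have hp1 : p ≤ 1 / (512 * (k : ℝ) ^ 5) :=
    (measureReal_mono fun x (hx : 1 / (8 * (k : ℝ)) < ‖Y x‖) =>
      (h32.trans hx.le : 1 / (32 * (k : ℝ)) ≤ ‖Y x‖)).trans hsmall
  have hm16 : |m| ≤ 1 / (16 * (k : ℝ)) := by
    set S : Set Ω := {x | 1 / (32 * (k : ℝ)) ≤ ‖Y x‖}
    have hS : MeasurableSet S := measurableSet_le measurable_const hY.norm
    have h1 : |m| ≤ ∫ x, (1 / (32 * (k : ℝ)) + 1 / 2 * S.indicator (fun _ => (1 : ℝ)) x) ∂μ := by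
      refine (abs_integral_le_integral_abs).trans (integral_mono hγi.abs
        ((integrable_const _).add (((integrable_const 1).indicator hS).const_mul _)) fun x => ?_)
      have h0 : (0 : ℝ) ≤ 1 / (32 * (k : ℝ)) := by positivity
      by_cases hx : x ∈ S
      · simp only [Set.indicator_of_mem hx]; linarith [hγb x]
      · simp only [Set.indicator_of_notMem hx, hγn x, mul_zero, add_zero]
        exact (not_le.1 hx).le
    rw [integral_add (integrable_const _) (((integrable_const 1).indicator hS).const_mul _),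
      integral_const_mul, integral_indicator_one' hS] at h1
    simp only [integral_const, probReal_univ, smul_eq_mul, one_mul] at h1
    have h2 : 1 / (512 * (k : ℝ) ^ 5) ≤ 1 / (512 * (k : ℝ)) := by
      gcongr
      exact le_self_pow₀ hk1 (by norm_num)
    have h3 : (1 : ℝ) / (32 * k) + 1 / 2 * (1 / (512 * k)) ≤ 1 / (16 * k) := by
      field_simp
      norm_num
    linarith [hsmall]
  have hcheb : p ≤ 256 * (k : ℝ) ^ 2 * (q - m ^ 2) := by
    rw [hp, ← integral_indicator_one' hB, ← hvar, ← integral_const_mul]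
    have i : Integrable (fun x => (γ x - m) * (γ x - m)) μ := by
      refine integrable_of_abs_le ((hγ.sub_const m).mul (hγ.sub_const m))
        ((1 / 2 + |m|) * (1 / 2 + |m|)) fun x => ?_
      rw [abs_mul]
      have h1 : |γ x - m| ≤ 1 / 2 + |m| := (abs_sub _ _).trans (add_le_add (hγb x) le_rfl)
      exact mul_le_mul h1 h1 (abs_nonneg _) (by positivity)
    refine integral_mono ((integrable_const 1).indicator hB) (i.const_mul _) fun x => ?_
    by_cases hx : x ∈ B
    · simp only [Set.indicator_of_mem hx]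
      have h1 : 1 / (16 * (k : ℝ)) ≤ |γ x - m| := by
        have h2 : 1 / (8 * (k : ℝ)) < |γ x| := by rw [hγn]; exact hx
        have h3 := abs_sub_abs_le_abs_sub (γ x) m
        have h4 : (1 : ℝ) / (8 * k) = 1 / (16 * k) + 1 / (16 * k) := by field_simp; ring
        linarith
      rw [← abs_mul_abs_self (γ x - m)]
      calc (1 : ℝ) = 256 * (k : ℝ) ^ 2 * (1 / (16 * k) * (1 / (16 * k))) := by field_simp; ring
        _ ≤ _ := by gcongr
    · simp only [Set.indicator_of_notMem hx]
      exact mul_nonneg (by positivity) (mul_self_nonneg _)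
  -- the second moment of the signed sum
  set Z : ℕ → Ω → ℝ := fun j x => ∑ r, (ε r : ℝ) * γ (shift T (tau j r) x) with hZdef
  have hεabs : ∀ r, |(ε r : ℝ)| = 1 := fun r => by rcases hε r with h | h <;> simp [h]
  have hZb : ∀ j x, |Z j x| ≤ k / 2 := fun j x => by
    refine (Finset.abs_sum_le_sum_abs _ _).trans ((Finset.sum_le_sum fun r _ =>
      (show |(ε r : ℝ) * γ (shift T (tau j r) x)| ≤ 1 / 2 by
        rw [abs_mul, hεabs, one_mul]; exact hγb _)).trans_eq ?_)
    simp
    ring
  have hZm : ∀ j, Measurable (Z j) := fun j => Finset.measurable_sum _ fun r _ =>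
    (hγ.comp (mp_shift hT _).measurable).const_mul _
  set E := ∑ r, (ε r : ℝ) with hE
  have hZint : ∀ j, ∫ x, Z j x ∂μ = E * m := fun j => by
    simp only [hZdef]
    rw [integral_finsetSum _ fun r _ =>
      (integrable_of_abs_le (φ := fun x => γ (shift T (tau j r) x))
        (hγ.comp (mp_shift hT _).measurable) _ fun x => hγb _).const_mul _, hE, Finset.sum_mul]
    refine Finset.sum_congr rfl fun r _ => ?_
    rw [integral_const_mul, integral_comp_shift hT hγ]
  have hZ2lim : Tendsto (fun j => ∫ x, Z j x * Z j x ∂μ) atTop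
      (𝓝 ((k : ℝ) * (q - m ^ 2) + (E * m) ^ 2)) := by
    have e : ∀ j, ∫ x, Z j x * Z j x ∂μ = ∑ r, ∑ c, (ε r : ℝ) * (ε c : ℝ) *
        ∫ x, γ (shift T (tau j r) x) * γ (shift T (tau j c) x) ∂μ := by
      intro j
      have hi : ∀ r c, Integrable (fun x => (ε r : ℝ) * (ε c : ℝ) *
          (γ (shift T (tau j r) x) * γ (shift T (tau j c) x))) μ := fun r c =>
        (integrable_of_abs_le (φ := fun x => γ (shift T (tau j r) x) * γ (shift T (tau j c) x))
          ((hγ.comp (mp_shift hT _).measurable).mul (hγ.comp (mp_shift hT _).measurable))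
          (1 / 2 * (1 / 2)) fun x => by
            rw [abs_mul]
            exact mul_le_mul (hγb _) (hγb _) (abs_nonneg _) (by norm_num)).const_mul _
      simp only [hZdef, Finset.sum_mul_sum, mul_mul_mul_comm]
      rw [integral_finsetSum _ fun r _ => integrable_finsetSum _ fun c _ => hi r c]
      refine Finset.sum_congr rfl fun r _ => ?_
      rw [integral_finsetSum _ fun c _ => hi r c]
      exact Finset.sum_congr rfl fun c _ => integral_const_mul _ _
    have hval : (k : ℝ) * (q - m ^ 2) + (E * m) ^ 2 =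
        ∑ r, ∑ c, (ε r : ℝ) * (ε c : ℝ) * (if r = c then q else m * m) := by
      have h1 : ∀ r c : Fin k, (ε r : ℝ) * (ε c : ℝ) * (if r = c then q else m * m) =
          (if r = c then q - m * m else 0) + (ε r : ℝ) * (ε c : ℝ) * (m * m) := by
        intro r c
        split_ifs with h
        · subst h
          rcases hε r with h | h <;> simp [h]
        · simp
      simp only [h1, Finset.sum_add_distrib, Finset.sum_ite_eq, Finset.mem_univ, if_true,
        ← Finset.sum_mul, ← Finset.mul_sum, ← hE]
      simp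
      ring
    simp only [e, hval]
    refine tendsto_finsetSum _ fun r _ => tendsto_finsetSum _ fun c _ => Tendsto.const_mul _ ?_
    split_ifs with h
    · subst h
      simp only [hq, integral_comp_shift hT (u := fun x => γ x * γ x) (hγ.mul hγ)]
      exact tendsto_const_nhds
    · exact tendsto_integral_mul_centred hT (hgap r c h) hγ hγb
  -- the signed sum is close to a constant off a set of measure O(p²)
  have hbound : ∀ δ : ℝ, 0 < δ → δ ≤ 1 / 16 →
      (k : ℝ) * (q - m ^ 2) ≤ δ ^ 2 + (k : ℝ) ^ 4 * p ^ 2 := by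
    intro δ hδ hδ'
    set D : ℕ → Set Ω := fun j => {x | δ ≤ ‖∑ r, ε r • Y (shift T (tau j r) x) - C j‖} with hD
    have hDm : ∀ j, MeasurableSet (D j) := fun j => measurableSet_le measurable_const
      ((Finset.measurable_sum _ fun r _ => (continuous_zsmul (ε r)).measurable.comp
        (hY.comp (mp_shift hT _).measurable)).sub_const _).norm
    set P : ℕ → Fin k → Fin k → Set Ω := fun j r c =>
      shift T (tau j r) ⁻¹' B ∩ shift T (tau j c) ⁻¹' B with hP
    set I : Finset (Fin k × Fin k) := Finset.univ.filter fun a => a.1 ≠ a.2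
    set bad : ℕ → Ω → ℝ := fun j x => (D j).indicator (fun _ => (1 : ℝ)) x +
      ∑ a ∈ I, (P j a.1 a.2).indicator (fun _ => (1 : ℝ)) x with hbad
    have hPm : ∀ j r c, MeasurableSet (P j r c) := fun j r c =>
      (measurableSet_tr hT _ hB).inter (measurableSet_tr hT _ hB)
    have hbad_int : ∀ j, Integrable (bad j) μ := fun j =>
      ((integrable_const 1).indicator (hDm j)).add (integrable_finsetSum _ fun a _ =>
        (integrable_const 1).indicator (hPm j a.1 a.2))
    have hbad_val : ∀ j, ∫ x, bad j x ∂μ = μ.real (D j) + ∑ a ∈ I, μ.real (P j a.1 a.2) := fun j => by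
      simp only [hbad]
      rw [integral_add ((integrable_const 1).indicator (hDm j)) (integrable_finsetSum _ fun a _ =>
        (integrable_const 1).indicator (hPm j a.1 a.2)), integral_indicator_one' (hDm j),
        integral_finsetSum _ fun a _ => (integrable_const 1).indicator (hPm j a.1 a.2)]
      simp only [integral_indicator_one' (hPm j _ _)]
    have hlim : Tendsto (fun j => δ ^ 2 + (k : ℝ) ^ 2 * (μ.real (D j) +
        ∑ a ∈ I, μ.real (P j a.1 a.2))) atTop
        (𝓝 (δ ^ 2 + (k : ℝ) ^ 2 * (0 + ∑ _a ∈ I, p * p))) :=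
      tendsto_const_nhds.add (((hW δ hδ).add (tendsto_finsetSum _ fun a ha =>
        tendsto_inter hT (hgap a.1 a.2 (Finset.mem_filter.1 ha).2) hB hB)).const_mul _)
    -- points where all summands are small appear
    have hgood : ∀ᶠ j in atTop, ∃ x, x ∉ D j ∧ ∀ r, shift T (tau j r) x ∉ B := by
      have hlt : (k : ℝ) * p < 1 := by
        refine lt_of_le_of_lt (mul_le_mul_of_nonneg_left hp1 (by linarith)) ?_
        rw [mul_one_div, div_lt_one (by positivity)]
        linarith [le_self_pow₀ hk1 (show (5 : ℕ) ≠ 0 by norm_num)]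
      filter_upwards [(hW δ hδ).eventually (eventually_lt_nhds (show (0 : ℝ) < 1 - k * p by linarith))]
        with j hj
      by_contra hcon
      simp only [not_exists, not_and, not_forall, not_not] at hcon
      have h1 : μ.real (Set.univ : Set Ω) ≤ μ.real (D j ∪ ⋃ r, shift T (tau j r) ⁻¹' B) := by
        refine measureReal_mono fun x _ => ?_
        by_cases hx : x ∈ D j
        · exact Or.inl hx
        · exact Or.inr (Set.mem_iUnion.2 (hcon x hx))
      have h2 := h1.trans ((measureReal_union_le _ _).trans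
        (add_le_add le_rfl (measureReal_iUnion_fintype_le _)))
      simp only [real_tr hT _ hB, ← hp, Finset.sum_const, Finset.card_univ, Fintype.card_fin,
        nsmul_eq_mul, probReal_univ] at h2
      simp only [hD] at h2
      linarith
    have hev : ∀ᶠ j in atTop, ∫ x, Z j x * Z j x ∂μ - (E * m) ^ 2 ≤
        δ ^ 2 + (k : ℝ) ^ 2 * (μ.real (D j) + ∑ a ∈ I, μ.real (P j a.1 a.2)) := by
      filter_upwards [hgood] with j hj
      set c := rep (C j) with hcdef
      -- pointwise lifts
      have hlift : ∀ x, x ∉ D j → ∃ N : ℤ, |Z j x - c - N| < δ := by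
        intro x hx
        simp only [hD, Set.mem_setOf_eq, not_le] at hx
        have e1 : ∑ r, ε r • Y (shift T (tau j r) x) - C j = ((Z j x - c : ℝ) : UnitAddCircle) := by
          simp only [hZdef, hcdef, AddCircle.coe_sub, coe_rep]
          congr 1
          refine Eq.trans ?_ (map_sum (QuotientAddGroup.mk' (AddSubgroup.zmultiples (1 : ℝ))) _ _).symm
          refine Finset.sum_congr rfl fun r _ => ?_
          rw [← zsmul_eq_mul]
          show _ = (((ε r) • γ (shift T (tau j r) x) : ℝ) : UnitAddCircle)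
          rw [AddCircle.coe_zsmul, hγdef, coe_rep]
        rw [e1, UnitAddCircle.norm_eq] at hx
        exact ⟨_, hx⟩
      have habs : ∀ x r, |(ε r : ℝ) * γ (shift T (tau j r) x)| = |γ (shift T (tau j r) x)| :=
        fun x r => by rw [abs_mul, hεabs, one_mul]
      have hsum8 : ∀ x (s : Finset (Fin k)), (∀ r ∈ s, shift T (tau j r) x ∉ B) →
          |∑ r ∈ s, (ε r : ℝ) * γ (shift T (tau j r) x)| ≤ 1 / 8 := by
        intro x s hs
        refine (Finset.abs_sum_le_sum_abs _ _).trans ((Finset.sum_le_sum fun r hr =>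
          (show |(ε r : ℝ) * γ (shift T (tau j r) x)| ≤ 1 / (8 * (k : ℝ)) by
            rw [habs, hγn]; exact not_lt.1 (hs r hr))).trans ?_)
        rw [Finset.sum_const, nsmul_eq_mul]
        have hc : (s.card : ℝ) ≤ k := by
          exact_mod_cast (Finset.card_le_univ s).trans_eq (Fintype.card_fin k)
        calc (s.card : ℝ) * (1 / (8 * k)) ≤ k * (1 / (8 * k)) := by gcongr
          _ = 1 / 8 := by field_simp
      have hzero : ∀ (u : ℝ) (N : ℤ), |u - N| < δ → |u| ≤ 7 / 8 → |u| < δ := by
        intro u N hN hu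
        have hN0 : N = 0 := by
          have h : |(N : ℝ)| < 1 := by
            have := abs_sub_abs_le_abs_sub (N : ℝ) u
            rw [abs_sub_comm] at this
            linarith
          exact Int.abs_lt_one_iff.1 (by exact_mod_cast h)
        simpa [hN0] using hN
      have hc : |c| ≤ 3 / 16 := by
        obtain ⟨x, hx, hx'⟩ := hj
        obtain ⟨N, hN⟩ := hlift x hx
        have h8 : |Z j x| ≤ 1 / 8 := hsum8 x _ fun r _ => hx' r
        have h2 := hzero (Z j x - c) N hN ((abs_sub _ _).trans (by linarith [abs_rep_le (C j)]))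
        rw [abs_lt] at h2
        rw [abs_le] at h8 ⊢
        constructor <;> linarith
      have hpt : ∀ x, (Z j x - c) * (Z j x - c) ≤ δ ^ 2 + (k : ℝ) ^ 2 * bad j x := by
        intro x
        have hind : ∀ (S : Set Ω), 0 ≤ S.indicator (fun _ => (1 : ℝ)) x := fun S =>
          Set.indicator_nonneg (fun _ _ => zero_le_one) x
        by_cases hgb : x ∈ D j ∨ ∃ a ∈ I, x ∈ P j a.1 a.2
        · have h1 : 1 ≤ bad j x := by
            rcases hgb with hx | ⟨a, ha, hx⟩
            · simp only [hbad, Set.indicator_of_mem hx, le_add_iff_nonneg_right]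
              exact Finset.sum_nonneg fun a _ => hind _
            · have h2 := Finset.single_le_sum (f := fun a : Fin k × Fin k =>
                (P j a.1 a.2).indicator (fun _ => (1 : ℝ)) x) (fun a _ => hind _) ha
              simp only [Set.indicator_of_mem hx] at h2
              simp only [hbad]
              linarith [hind (D j)]
          have h3 : |Z j x - c| ≤ k := (abs_sub _ _).trans (by linarith [hZb j x])
          calc (Z j x - c) * (Z j x - c) = |Z j x - c| * |Z j x - c| :=
                (abs_mul_abs_self _).symm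
            _ ≤ (k : ℝ) * k := mul_le_mul h3 h3 (abs_nonneg _) (by positivity)
            _ = (k : ℝ) ^ 2 * 1 := by ring
            _ ≤ (k : ℝ) ^ 2 * bad j x := by gcongr
            _ ≤ _ := le_add_of_nonneg_left (sq_nonneg δ)
        · simp only [not_or, not_exists, not_and] at hgb
          obtain ⟨hxD, hxP⟩ := hgb
          obtain ⟨N, hN⟩ := hlift x hxD
          have h1 : |Z j x| ≤ 5 / 8 := by
            by_cases hbr : ∃ r, shift T (tau j r) x ∈ B
            · obtain ⟨r, hr⟩ := hbr
              have hrest := hsum8 x (Finset.univ.erase r) fun c hc hc' =>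
                hxP (r, c) (by simp [I, (Finset.ne_of_mem_erase hc).symm]) ⟨hr, hc'⟩
              simp only [hZdef, ← Finset.add_sum_erase _ _ (Finset.mem_univ r)]
              refine (abs_add_le _ _).trans ?_
              rw [habs]
              linarith [hγb (shift T (tau j r) x)]
            · simp only [not_exists] at hbr
              exact (hsum8 x _ fun r _ => hbr r).trans (by norm_num)
          have h2 := hzero (Z j x - c) N hN ((abs_sub _ _).trans (by linarith))
          have hb0 : 0 ≤ bad j x := add_nonneg (hind _) (Finset.sum_nonneg fun a _ => hind _)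
          calc (Z j x - c) * (Z j x - c) = |Z j x - c| * |Z j x - c| :=
                (abs_mul_abs_self _).symm
            _ ≤ δ * δ := mul_le_mul h2.le h2.le (abs_nonneg _) hδ.le
            _ = δ ^ 2 := by ring
            _ ≤ _ := le_add_of_nonneg_right (by positivity)
      have iZ : Integrable (Z j) μ := integrable_of_abs_le (hZm j) _ (hZb j)
      have iZ2 : Integrable (fun x => Z j x * Z j x) μ :=
        integrable_of_abs_le ((hZm j).mul (hZm j)) ((k : ℝ) / 2 * (k / 2)) fun x => by
          rw [abs_mul]; exact mul_le_mul (hZb j x) (hZb j x) (abs_nonneg _) (by positivity)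
      have e2 : ∀ x, (Z j x - c) * (Z j x - c) = Z j x * Z j x + (-(2 * c) * Z j x + c ^ 2) :=
        fun x => by ring
      have h1 : ∫ x, (Z j x - c) * (Z j x - c) ∂μ ≤
          ∫ x, (δ ^ 2 + (k : ℝ) ^ 2 * bad j x) ∂μ := by
        refine integral_mono ?_ ((integrable_const _).add ((hbad_int j).const_mul _)) hpt
        simp only [e2]
        exact iZ2.add ((iZ.const_mul _).add (integrable_const _))
      simp only [e2] at h1
      rw [integral_affine iZ2 iZ, hZint, integral_add (integrable_const _) ((hbad_int j).const_mul _), integral_const_mul,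
        hbad_val] at h1
      simp only [integral_const, probReal_univ, smul_eq_mul, one_mul] at h1
      nlinarith [sq_nonneg (c - E * m)]
    have h := le_of_tendsto_of_tendsto (hZ2lim.sub_const ((E * m) ^ 2)) hlim hev
    rw [add_sub_cancel_right, zero_add, Finset.sum_const, nsmul_eq_mul] at h
    refine h.trans (add_le_add le_rfl ?_)
    have hI : (I.card : ℝ) ≤ (k : ℝ) ^ 2 := by
      have : I.card ≤ Fintype.card (Fin k × Fin k) := Finset.card_le_univ I
      rw [Fintype.card_prod, Fintype.card_fin] at this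
      rw [sq]
      exact_mod_cast this
    calc (k : ℝ) ^ 2 * (I.card * (p * p)) ≤ (k : ℝ) ^ 2 * ((k : ℝ) ^ 2 * (p * p)) := by
          gcongr
      _ = _ := by ring
  have hfin : (k : ℝ) * (q - m ^ 2) ≤ (k : ℝ) ^ 4 * p ^ 2 := by
    refine le_of_forall_pos_le_add fun e he => ?_
    have hd : 0 < min (1 / 16) (Real.sqrt e) := lt_min (by norm_num) (Real.sqrt_pos.2 he)
    refine (hbound _ hd (min_le_left _ _)).trans ?_
    rw [add_comm ((k : ℝ) ^ 4 * p ^ 2)]
    refine add_le_add ?_ le_rfl
    calc (min (1 / 16) (Real.sqrt e)) ^ 2 ≤ Real.sqrt e ^ 2 :=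
          pow_le_pow_left₀ hd.le (min_le_right _ _) 2
      _ = e := Real.sq_sqrt he.le
  have hv : q - m ^ 2 = 0 := by
    refine le_antisymm ?_ hv0
    have h1 : (k : ℝ) ^ 4 * p ^ 2 ≤
        (k : ℝ) ^ 4 * (1 / (512 * (k : ℝ) ^ 5) * (256 * (k : ℝ) ^ 2 * (q - m ^ 2))) := by
      rw [sq]
      gcongr
    have h2 : (k : ℝ) ^ 4 * (1 / (512 * (k : ℝ) ^ 5) * (256 * (k : ℝ) ^ 2 * (q - m ^ 2))) =
        (k : ℝ) / 2 * (q - m ^ 2) := by field_simp; ring
    nlinarith [hfin, h1, h2]
  refine ⟨(m : UnitAddCircle), ?_⟩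
  have i : Integrable (fun x => (γ x - m) * (γ x - m)) μ := by
    have e : ∀ x, (γ x - m) * (γ x - m) = γ x * γ x + (-(2 * m) * γ x + m ^ 2) := fun x => by ring
    simp only [e]
    exact hγ2.add ((hγi.const_mul _).add (integrable_const _))
  rw [← hvar] at hv
  filter_upwards [(integral_eq_zero_iff_of_nonneg (fun x => mul_self_nonneg (γ x - m)) i).1 hv]
    with x hx
  have : γ x = m := by
    have := mul_self_eq_zero.1 (show (γ x - m) * (γ x - m) = 0 from hx)
    linarith
  rw [← this, hγdef, coe_rep]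

/-- Signed relations with error tending to `0` force a constant. -/
theorem const_of_approx {k : ℕ} (hk : 1 ≤ k) (ε : Fin k → ℤ) (hε : ∀ r, ε r = 1 ∨ ε r = -1)
    (tau : ℕ → Fin k → ℤ) (htau : ∀ (L : ℕ) i j, i ≠ j → (L : ℤ) ≤ |tau L i - tau L j|)
    (b : ℕ → UnitAddCircle) {θ : Ω → UnitAddCircle} (hθ : Measurable θ)
    (hD : ∀ δ : ℝ, 0 < δ → Tendsto (fun s => μ.real
      {x | δ ≤ ‖∑ r, ε r • θ (shift T (tau s r) x) - b s‖}) atTop (𝓝 0)) :
    ∃ c, ∀ᵐ x ∂μ, θ x = c := by
  classical
  have hk1 : (1 : ℝ) ≤ k := by exact_mod_cast hk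
  have : Nonempty (Fin k) := ⟨⟨0, hk⟩⟩
  set Y : ℕ → Ω → UnitAddCircle := fun s x => ∑ r, ε r • θ (shift T (tau s r) x) - b s with hYdef
  have hYm : ∀ s, Measurable (Y s) := fun s =>
    (Finset.measurable_sum _ fun r _ => (continuous_zsmul (ε r)).measurable.comp
      (hθ.comp (mp_shift hT _).measurable)).sub_const _
  have hgap : ∀ r c, r ≠ c → Tendsto (fun j => |tau j r - tau j c|) atTop atTop := fun r c hrc =>
    tendsto_atTop_mono (fun j => htau j r c hrc) tendsto_natCast_atTop_atTop
  -- eventually the relation is exact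
  have hexact : ∀ᶠ s in atTop, ∃ v, ∀ᵐ x ∂μ, Y s x = v := by
    filter_upwards [(hD (1 / (32 * (k : ℝ))) (by positivity)).eventually
      (eventually_le_nhds (show (0 : ℝ) < 1 / (512 * (k : ℝ) ^ 5) by positivity))] with s hs
    refine const_of_small hT hk ε hε hgap (hYm s) (fun j => (∑ r, ε r) • (b j - b s))
      (fun δ hδ => ?_) hs
    have hid : ∀ j x, ∑ r, ε r • Y s (shift T (tau j r) x) - (∑ r, ε r) • (b j - b s) =
        ∑ c, ε c • Y j (shift T (tau s c) x) := by
      intro j x
      simp only [hYdef, zsmul_sub, Finset.sum_sub_distrib, Finset.smul_sum, shift_shift,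
        ← Finset.sum_zsmul]
      rw [Finset.sum_comm, show ∑ c, ∑ r, ε r • ε c • θ (shift T (tau s c + tau j r) x) =
        ∑ c, ∑ r, ε c • ε r • θ (shift T (tau j r + tau s c) x) from
        Finset.sum_congr rfl fun c _ => Finset.sum_congr rfl fun r _ => by
          rw [smul_comm, add_comm (tau s c)]]
      simp only [← Finset.sum_smul]
      abel
    have h0 : Tendsto (fun j => ∑ _c : Fin k, μ.real {x | δ / k ≤ ‖Y j x‖}) atTop (𝓝 0) := by
      simpa using tendsto_finsetSum (Finset.univ : Finset (Fin k))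
        fun _ _ => hD (δ / k) (by positivity)
    refine squeeze_zero (fun j => measureReal_nonneg) (fun j => ?_) h0
    refine (measureReal_mono (s₂ := ⋃ c, shift T (tau s c) ⁻¹' {x | δ / k ≤ ‖Y j x‖})
      fun x hx => ?_).trans ((measureReal_iUnion_fintype_le _).trans_eq
        (Finset.sum_congr rfl fun c _ => real_tr hT _
          (measurableSet_le measurable_const (hYm j).norm)))
    by_contra hcon
    simp only [Set.mem_iUnion, Set.mem_preimage, Set.mem_setOf_eq, not_exists, not_le] at hcon
    refine not_lt.2 (show δ ≤ _ from hx) ?_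
    rw [hid]
    refine lt_of_lt_of_le (lt_of_le_of_lt (norm_sum_le _ _) (Finset.sum_lt_sum_of_nonempty
      Finset.univ_nonempty fun c _ => (lt_of_le_of_lt ?_ (hcon c)))) (le_of_eq ?_)
    · rcases hε c with h | h <;> simp [h]
    · simp
      field_simp
  obtain ⟨s₀, hs₀⟩ := eventually_atTop.1 hexact
  -- polynomials
  choose lo hlo using fun s => Finite.exists_min (tau s)
  choose hi hhi using fun s => Finite.exists_max (tau s)
  set ex : ℕ → Fin k → ℕ := fun s r => (tau s r - tau s (lo s)).toNat with hex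
  have hexc : ∀ s r, ((ex s r : ℕ) : ℤ) = tau s r - tau s (lo s) := fun s r => by
    have := hlo s r
    simp only [hex]
    omega
  set P : ℕ → ℤ[X] := fun s => ∑ r, monomial (ex s r) (ε r) with hP
  have hmem : ∀ s, s₀ ≤ s → P s ∈ constIdeal hT θ := by
    intro s hs
    obtain ⟨v, hv⟩ := hs₀ s hs
    refine (mem_constIdeal hT).2 ⟨v + b s, ?_⟩
    filter_upwards [(mp_shift hT (-tau s (lo s))).quasiMeasurePreserving.ae hv] with x hx
    rw [← hx, hP, act_sum]
    simp only [hYdef, act_monomial, hexc, shift_shift, sub_add_cancel, ← sub_eq_add_neg]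
  set s₁ := max s₀ 1
  have hsep : ∀ s r r', 1 ≤ s → r ≠ r' → ex s r ≠ ex s r' := fun s r r' hs hne h => by
    have h1 := htau s r r' hne
    have h2 : tau s r - tau s r' = 0 := by
      have := hexc s r; have := hexc s r'; rw [h] at *; omega
    rw [h2, abs_zero] at h1
    omega
  have hmon : (monomial 0 (ε (hi s₁)) * P s₁).Monic := by
    refine monic_of_natDegree_le_of_coeff_eq_one (ex s₁ (hi s₁)) ?_ ?_
    · refine natDegree_mul_le.trans ?_
      rw [monomial_zero_left, natDegree_C, zero_add, hP]
      refine natDegree_sum_le_of_forall_le _ _ fun r _ => (natDegree_monomial_le _).trans ?_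
      have := hhi s₁ r
      simp only [hex]
      omega
    · rw [monomial_zero_left, coeff_C_mul, hP, finsetSum_coeff, Finset.sum_eq_single (hi s₁)]
      · rw [coeff_monomial_same]
        rcases hε (hi s₁) with h | h <;> simp [h]
      · intro r _ hr
        exact coeff_monomial_of_ne _ (hsep s₁ _ _ (le_max_right _ _) (Ne.symm hr))
      · simp
  refine const_of_relations hT hθ
    ((constIdeal hT θ).mul_mem_left _ (hmem s₁ (le_max_left _ _))) hmon fun z hz => ?_
  -- common roots lie on the unit circle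
  have hrel : ∀ s, s₀ ≤ s → ∑ r, (ε r : ℂ) * z ^ ex s r = 0 := fun s hs => by
    simpa [hP, aeval_monomial, algebraMap_int_eq] using hz _ (hmem s hs)
  have hdom : ∀ s, s₀ ≤ s → ∀ r₀, ∀ R : ℝ, 0 ≤ R →
      (∀ r, r ≠ r₀ → ‖z‖ ^ ex s r ≤ R) → ‖z‖ ^ ex s r₀ ≤ ((k : ℝ) - 1) * R := by
    intro s hs r₀ R hR hle
    have h := hrel s hs
    rw [← Finset.add_sum_erase _ _ (Finset.mem_univ r₀), add_eq_zero_iff_eq_neg] at h
    have h2 := congrArg norm h
    rw [norm_neg] at h2
    have hn : ∀ r, ‖(ε r : ℂ) * z ^ ex s r‖ = ‖z‖ ^ ex s r := fun r => by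
      rcases hε r with e | e <;> simp [e]
    rw [hn] at h2
    rw [h2]
    refine (norm_sum_le _ _).trans ((Finset.sum_le_sum fun r hr =>
      (hn r).le.trans (hle r (Finset.ne_of_mem_erase hr))).trans_eq ?_)
    rw [Finset.sum_const, Finset.card_erase_of_mem (Finset.mem_univ r₀), Finset.card_univ,
      Fintype.card_fin, nsmul_eq_mul, Nat.cast_sub hk, Nat.cast_one]
  have hgap' : ∀ s r r', r ≠ r' → ex s r' ≤ ex s r → ex s r' + s ≤ ex s r := fun s r r' hne hle => by
    have h1 := htau s r r' hne
    have h2 := hexc s r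
    have h3 := hexc s r'
    have h4 : tau s r' ≤ tau s r := by omega
    rw [abs_of_nonneg (by omega)] at h1
    omega
  rcases lt_trichotomy ‖z‖ 1 with hlt | heq | hgt
  · exfalso
    have hlim : Tendsto (fun s : ℕ => ((k : ℝ) - 1) * ‖z‖ ^ s) atTop (𝓝 0) := by
      simpa using (tendsto_pow_atTop_nhds_zero_of_lt_one (norm_nonneg z) hlt).const_mul _
    obtain ⟨s, hs, hs'⟩ := ((hlim.eventually (eventually_lt_nhds one_pos)).and
      (eventually_ge_atTop (max s₀ 1))).exists
    have h0 : ex s (lo s) = 0 := by simp [hex]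
    have h := hdom s (le_trans (le_max_left _ _) hs') (lo s) (‖z‖ ^ s) (by positivity)
      fun r hr => pow_le_pow_of_le_one (norm_nonneg _) hlt.le (by
        have := hgap' s r (lo s) hr (by rw [h0]; exact Nat.zero_le _)
        omega)
    rw [h0, pow_zero] at h
    linarith
  · exact heq
  · exfalso
    obtain ⟨s, hs, hs'⟩ := (((tendsto_pow_atTop_atTop_of_one_lt hgt).eventually_gt_atTop
      ((k : ℝ) - 1)).and (eventually_ge_atTop (max s₀ 1))).exists
    set M := ex s (hi s)
    have hMle : ∀ r, ex s r ≤ M := fun r => by have := hhi s r; simp only [M, hex]; omega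
    by_cases hone : ∀ r, r = hi s
    · have h := hdom s (le_trans (le_max_left _ _) hs') (hi s) 0 le_rfl
        fun r hr => absurd (hone r) hr
      linarith [pow_pos (lt_trans one_pos hgt) M]
    · obtain ⟨r₁, hr₁⟩ := not_forall.1 hone
      have hsM : s ≤ M := by have := hgap' s (hi s) r₁ (Ne.symm hr₁) (hMle r₁); omega
      have h := hdom s (le_trans (le_max_left _ _) hs') (hi s) (‖z‖ ^ (M - s)) (by positivity)
        fun r hr => pow_le_pow_right₀ hgt.le (by
          have := hgap' s (hi s) r (Ne.symm hr) (hMle r); omega)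
      have e : ‖z‖ ^ M = ‖z‖ ^ s * ‖z‖ ^ (M - s) := by rw [← pow_add]; congr 1; omega
      have hpos : 0 < ‖z‖ ^ (M - s) := pow_pos (lt_trans one_pos hgt) _
      rw [e] at h
      linarith [(mul_lt_mul_iff_left₀ hpos).2 hs]

omit hT in
/-- The signed cofactor expansion along one column. -/
theorem sum_signed_cofactor {k : ℕ} (t : Fin k → Fin k → ℤ) (b : Fin k → UnitAddCircle)
    (θ : Fin k → Ω → UnitAddCircle) (c : Fin k) (x : Ω) :
    ∑ σ : Equiv.Perm (Fin k), ((Equiv.Perm.sign σ : ℤˣ) : ℤ) •
        (∑ i, θ i (shift T (t (σ.symm c) i + (expo t σ - t (σ.symm c) c)) x) - b (σ.symm c)) =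
      (∑ σ : Equiv.Perm (Fin k), ((Equiv.Perm.sign σ : ℤˣ) : ℤ) • θ c (shift T (expo t σ) x)) -
        ∑ σ : Equiv.Perm (Fin k), ((Equiv.Perm.sign σ : ℤˣ) : ℤ) • b (σ.symm c) := by
  classical
  simp only [zsmul_sub, Finset.sum_sub_distrib, Finset.smul_sum]
  congr 1
  rw [Finset.sum_comm, ← Finset.add_sum_erase _ _ (Finset.mem_univ c)]
  have hz : ∀ d ∈ Finset.univ.erase c, ∑ σ : Equiv.Perm (Fin k),
      ((Equiv.Perm.sign σ : ℤˣ) : ℤ) •
        θ d (shift T (t (σ.symm c) d + (expo t σ - t (σ.symm c) c)) x) = 0 := by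
    intro d hd
    have hdc : d ≠ c := Finset.ne_of_mem_erase hd
    refine Finset.sum_involution (fun σ _ => Equiv.swap c d * σ) (fun σ _ => ?_) (fun σ _ _ h => ?_)
      (fun σ _ => Finset.mem_univ _) (fun σ _ => by rw [← mul_assoc, Equiv.swap_mul_self, one_mul])
    · have h1 : (Equiv.swap c d * σ).symm c = σ.symm d := by
        rw [Equiv.symm_apply_eq, Equiv.Perm.mul_apply, Equiv.apply_symm_apply,
          Equiv.swap_apply_right]
      have hne : σ.symm c ≠ σ.symm d := fun e => hdc (σ.symm.injective e).symm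
      have h2 : expo t (Equiv.swap c d * σ) - expo t σ =
          (t (σ.symm c) d - t (σ.symm c) c) + (t (σ.symm d) c - t (σ.symm d) d) := by
        rw [expo, expo, ← Finset.sum_sub_distrib,
          Finset.sum_eq_add (σ.symm c) (σ.symm d) hne ?_ (by simp) (by simp)]
        · simp
        · rintro i - ⟨hi, hi'⟩
          rw [Equiv.Perm.mul_apply, Equiv.swap_apply_of_ne_of_ne, sub_self]
          · exact fun e => hi (by rw [← e, Equiv.symm_apply_apply])
          · exact fun e => hi' (by rw [← e, Equiv.symm_apply_apply])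
      rw [h1, show t (σ.symm d) d + (expo t (Equiv.swap c d * σ) - t (σ.symm d) c) =
        t (σ.symm c) d + (expo t σ - t (σ.symm c) c) by linarith, ← add_smul, map_mul,
        Equiv.Perm.sign_swap hdc.symm]
      simp
    · exact hdc (Equiv.swap_eq_one_iff.1 (mul_eq_right.1 h)).symm
  rw [Finset.sum_eq_zero hz, add_zero]
  exact Finset.sum_congr rfl fun σ _ => by rw [add_sub_cancel]

/-- Approximate relations among several functions force all of them to be constant. -/
theorem const_of_approx_multi {k : ℕ} (tau : ℕ → Fin k → ℤ)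
    (htau : ∀ (L : ℕ) i j, i ≠ j → (L : ℤ) ≤ |tau L i - tau L j|)
    (θ : Fin k → Ω → UnitAddCircle) (hθ : ∀ i, Measurable (θ i)) (b : ℕ → UnitAddCircle)
    (hD : ∀ δ : ℝ, 0 < δ → Tendsto (fun s => μ.real
      {x | δ ≤ ‖∑ i, θ i (shift T (tau s i) x) - b s‖}) atTop (𝓝 0)) (c : Fin k) :
    ∃ v, ∀ᵐ x ∂μ, θ c x = v := by
  classical
  set N := Fintype.card (Equiv.Perm (Fin k)) with hN
  have hN0 : 1 ≤ N := Fintype.card_pos
  have hk : 0 < k := c.pos
  let e := Fintype.equivFin (Equiv.Perm (Fin k))
  choose n hnge hn using exists_sparse tau htau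
  -- the chosen indices tend to infinity
  have hnM : ∀ δ : ℝ, 0 < δ → ∀ i, Tendsto (fun M => μ.real
      {x | δ ≤ ‖∑ l, θ l (shift T (tau (n M i) l) x) - b (n M i)‖}) atTop (𝓝 0) := by
    intro δ hδ i
    exact (hD δ hδ).comp (tendsto_atTop_mono (fun M => (hnge M i)) tendsto_id)
  refine const_of_approx hT hN0 (fun s => ((Equiv.Perm.sign (e.symm s) : ℤˣ) : ℤ))
    (fun s => by rcases Int.units_eq_one_or (Equiv.Perm.sign (e.symm s)) with h | h <;> simp [h])
    (fun M s => expo (fun i => tau (n M i)) (e.symm s))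
    (fun M s s' hne => hn M _ _ fun h => hne (e.symm.injective h))
    (fun M => ∑ σ : Equiv.Perm (Fin k), ((Equiv.Perm.sign σ : ℤˣ) : ℤ) • b (n M (σ.symm c)))
    (hθ c) fun δ hδ => ?_
  have hm : ∀ s, MeasurableSet {x | δ / N ≤ ‖∑ i, θ i (shift T (tau s i) x) - b s‖} := fun s =>
    measurableSet_le measurable_const ((Finset.measurable_sum _ fun i _ =>
      (hθ i).comp (mp_shift hT _).measurable).sub_const _).norm
  refine squeeze_zero (fun M => measureReal_nonneg) (fun M => ?_)
    (by
      have h := tendsto_finsetSum (Finset.univ : Finset (Equiv.Perm (Fin k)))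
        (fun σ _ => hnM (δ / N) (by positivity) (σ.symm c))
      simpa using h)
  refine (measureReal_mono (s₂ := ⋃ σ : Equiv.Perm (Fin k),
    shift T (expo (fun i => tau (n M i)) σ - tau (n M (σ.symm c)) c) ⁻¹'
      {x | δ / N ≤ ‖∑ i, θ i (shift T (tau (n M (σ.symm c)) i) x) - b (n M (σ.symm c))‖})
    fun x hx => ?_).trans ((measureReal_iUnion_fintype_le _).trans_eq
      (Finset.sum_congr rfl fun σ _ => real_tr hT _ (hm _)))
  by_contra hcon
  simp only [Set.mem_iUnion, Set.mem_preimage, Set.mem_setOf_eq, not_exists, not_le,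
    shift_shift] at hcon
  refine not_lt.2 (show δ ≤ _ from hx) ?_
  have h := sum_signed_cofactor (T := T) (fun i => tau (n M i)) (fun i => b (n M i)) θ c x
  rw [show ∑ s, ((Equiv.Perm.sign (e.symm s) : ℤˣ) : ℤ) •
      θ c (shift T (expo (fun i => tau (n M i)) (e.symm s)) x) =
      ∑ σ : Equiv.Perm (Fin k), ((Equiv.Perm.sign σ : ℤˣ) : ℤ) •
        θ c (shift T (expo (fun i => tau (n M i)) σ) x) from Equiv.sum_comp e.symm
      fun σ => ((Equiv.Perm.sign σ : ℤˣ) : ℤ) • θ c (shift T (expo (fun i => tau (n M i)) σ) x),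
    ← h]
  refine lt_of_lt_of_le (lt_of_le_of_lt (norm_sum_le _ _) (Finset.sum_lt_sum_of_nonempty
    Finset.univ_nonempty fun σ _ => (lt_of_le_of_lt ?_ (hcon σ)))) (le_of_eq ?_)
  · rcases Int.units_eq_one_or (Equiv.Perm.sign σ) with h | h <;>
      simp only [h, Units.val_neg, Units.val_one, neg_smul, one_smul, norm_neg, le_refl]
  · simp [← hN]
    field_simp

end Vale.Agent.P102
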