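import Vale.Agent.P102.Step

/-!
# P102: small parity errors are impossible

Iterating the improvement step gives a set whose parity error tends to `0`.  Such a set satisfies the
relation exactly along some configuration with distinct times, and then the shifts of its indicator
take only finitely many values, which mixing forbids unless its measure is `0` or `1`.
-/

noncomputable section

namespace Vale.Agent.P102

open MeasureTheory Filter Topology
open scoped symmDiff

variable {Ω : Type*} [MeasurableSpace Ω] {T : Ω ≃ᵐ Ω} {μ : Measure Ω} [IsProbabilityMeasure μ]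
variable (hT : IsMixing μ T)
include hT

/-- An exact parity relation at distinct times forces a trivial set. -/
theorem trivial_of_exact {k : ℕ} (hk : 1 ≤ k) (t : Fin k → ℤ) (ht : Function.Injective t)
    (b : ZMod 2) {A : Set Ω} (hA : MeasurableSet A) (h : μ.real (err T t b A) = 0) :
    μ.real A = μ.real A * μ.real A := by
  classical
  have : Nonempty (Fin k) := ⟨⟨0, hk⟩⟩
  obtain ⟨c, hc⟩ := Finite.exists_max t
  obtain ⟨c', hc'⟩ := Finite.exists_min t
  set L : ℕ := (t c - t c').toNat with hL
  have hrel : ∀ᵐ x ∂μ, ∀ m : ℤ, defect T t b A (shift T m x) = 0 := by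
    rw [ae_all_iff]
    intro m
    refine (mp_shift hT m).quasiMeasurePreserving.ae (p := fun y => defect T t b A y = 0)
      (measure_eq_zero_iff_ae_notMem.1 ((measureReal_eq_zero_iff (measure_ne_top μ _)).1 h)
        |>.mono fun x hx => ?_)
    exact not_not.1 hx
  set W : Ω → Fin L → ZMod 2 := fun x l => ind A (shift T ((l : ℕ) : ℤ) x)
  have hphi : ∀ n : ℕ, ∃ φ : (Fin L → ZMod 2) → ZMod 2,
      ∀ᵐ x ∂μ, ind A (shift T (n : ℤ) x) = φ (W x) := by
    intro n
    induction n using Nat.strong_induction_on with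
    | _ n ih =>
      by_cases hn : n < L
      · exact ⟨fun w => w ⟨n, hn⟩, Eventually.of_forall fun x => rfl⟩
      · have hidx : ∀ r : {r // r ∈ Finset.univ.erase c}, ((n : ℤ) - t c + t r).toNat < n ∧
            (((n : ℤ) - t c + t r).toNat : ℤ) = (n : ℤ) - t c + t r := by
          rintro ⟨r, hr⟩
          have h1 := hc r
          have h2 := hc' r
          have h3 : t r ≠ t c := fun e => Finset.ne_of_mem_erase hr (ht e)
          simp only
          omega
        choose φ hφ using fun r => ih _ (hidx r).1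
        refine ⟨fun w => -(b + ∑ r ∈ (Finset.univ.erase c).attach, φ r w), ?_⟩
        filter_upwards [hrel, ae_all_iff.2 hφ] with x hx hxφ
        have hx' := hx ((n : ℤ) - t c)
        simp only [defect, shift_shift] at hx'
        rw [← Finset.add_sum_erase _ _ (Finset.mem_univ c),
          show t c + ((n : ℤ) - t c) = (n : ℤ) by ring, ← Finset.sum_attach] at hx'
        rw [show ∑ r ∈ (Finset.univ.erase c).attach, φ r (W x) =
          ∑ r ∈ (Finset.univ.erase c).attach, ind A (shift T (t r + ((n : ℤ) - t c)) x) from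
          Finset.sum_congr rfl fun r _ => by
            rw [← hxφ r, (hidx r).2, add_comm ((n : ℤ) - t c)]]
        linear_combination hx'
  choose φ hφ using hphi
  obtain ⟨ψ, hψ⟩ : ∃ ψ, ∃ᶠ n : ℕ in atTop, φ n = ψ := by
    obtain ⟨ψ, hψ⟩ := Finite.exists_infinite_fiber φ
    exact ⟨ψ, Nat.frequently_atTop_iff_infinite.2 (Set.infinite_coe_iff.1 hψ)⟩
  obtain ⟨n₀, hn₀⟩ := hψ.exists
  have hgap : Tendsto (fun n : ℕ => |(n₀ : ℤ) - (n : ℤ)|) atTop atTop := by
    refine tendsto_atTop_mono (fun n => ?_)
      (tendsto_atTop_add_const_right atTop (-(n₀ : ℤ)) tendsto_natCast_atTop_atTop)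
    rw [abs_sub_comm]
    exact le_trans (by linarith) (le_abs_self _)
  refine (tendsto_nhds_unique_of_frequently_eq (tendsto_inter hT hgap hA hA) tendsto_const_nhds
    (hψ.mono fun n hn => ?_)).symm
  have heq : ∀ᵐ x ∂μ, x ∈ shift T (n₀ : ℤ) ⁻¹' A ↔ x ∈ shift T (n : ℤ) ⁻¹' A := by
    filter_upwards [hφ n₀, hφ n] with x h1 h2
    rw [hn₀] at h1
    rw [hn, ← h1] at h2
    simp only [ind, Set.mem_preimage] at h2 ⊢
    by_cases p : shift T (n₀ : ℤ) x ∈ A <;> by_cases q : shift T (n : ℤ) x ∈ A <;> simp_all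
  rw [measureReal_congr (show (shift T (n₀ : ℤ) ⁻¹' A ∩ shift T (n : ℤ) ⁻¹' A : Set Ω) =ᵐ[μ]
    shift T (n₀ : ℤ) ⁻¹' A from eventuallyEq_set.2 (heq.mono fun x hx =>
      ⟨fun hx' => hx'.1, fun hx' => ⟨hx', hx.1 hx'⟩⟩)), real_tr hT _ hA]

variable {k : ℕ} {tau : ℕ → Fin k → ℤ} {U : Ultrafilter ℕ}
  (hgap : ∀ r c, r ≠ c → Tendsto (fun j => |tau j r - tau j c|) U atTop)

omit hgap in
/-- Changing the set changes the error by at most `k` times the change. -/
theorem real_err_le_add (t : Fin k → ℤ) (b : ZMod 2) {A A' : Set Ω} (hA : MeasurableSet A)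
    (hA' : MeasurableSet A') :
    μ.real (err T t b A') ≤ μ.real (err T t b A) + (k : ℝ) * μ.real (A ∆ A') := by
  calc μ.real (err T t b A') ≤ μ.real (err T t b A ∪ ⋃ r, shift T (t r) ⁻¹' (A ∆ A')) := by
        refine measureReal_mono fun x hx => ?_
        by_contra hcon
        simp only [Set.mem_union, Set.mem_iUnion, Set.mem_preimage, not_or, not_exists,
          Set.mem_symmDiff] at hcon
        refine hcon.1 (?_ : defect T t b A x ≠ 0)
        have e : ∀ r, ind A (shift T (t r) x) = ind A' (shift T (t r) x) := fun r => by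
          have := hcon.2 r
          by_cases p : shift T (t r) x ∈ A <;> by_cases q : shift T (t r) x ∈ A' <;>
            simp_all [ind]
        rw [defect, Finset.sum_congr rfl fun r _ => e r]
        exact hx
    _ ≤ _ := (measureReal_union_le _ _).trans (add_le_add le_rfl
        ((measureReal_iUnion_fintype_le _).trans_eq (by
          rw [Finset.sum_congr rfl fun r _ => real_tr hT (t r) (hA.symmDiff hA')]
          simp)))

include hgap

/-- If the parity error tends to `0` then the set is trivial. -/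
theorem trivial_of_tendsto_zero (hk : 1 ≤ k) (b : ZMod 2) {A : Set Ω} (hA : MeasurableSet A)
    (he : Tendsto (fun j => μ.real (err T (tau j) b A)) U (𝓝 0)) :
    μ.real A = μ.real A * μ.real A := by
  have hk1 : (1 : ℝ) ≤ k := by exact_mod_cast hk
  have hquad : ∀ i, μ.real (err T (tau i) b A) ≤
      ((k : ℝ) - 1) * μ.real (err T (tau i) b A) ^ 2 := by
    intro i
    have hS := measurableSet_err hT (tau i) b hA
    have h2 : Tendsto (fun j => ∑ c : Fin k, μ.real (shift T (-tau i c) ⁻¹' err T (tau i) b A ∩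
        shift T (-tau j ⟨0, hk⟩) ⁻¹' err T (tau j) b A)) U (𝓝 0) := by
      refine squeeze_zero (fun j => Finset.sum_nonneg fun c _ => measureReal_nonneg)
        (fun j => ?_) (by simpa using he.const_mul (k : ℝ))
      refine (Finset.sum_le_sum fun c _ => (measureReal_mono Set.inter_subset_right).trans_eq
        (real_tr hT _ (measurableSet_err hT (tau j) b hA))).trans_eq ?_
      simp
    have h := le_of_tendsto_of_tendsto' tendsto_const_nhds
      ((tendsto_self_inter hT hgap hS ⟨0, hk⟩).add h2)
      fun j => real_err_le hT (tau i) (tau j) b hA ⟨0, hk⟩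
    simpa using h
  have hev1 := he.eventually (eventually_lt_nhds (show (0 : ℝ) < 1 / (2 * k) by positivity))
  have hev2 : ∀ᶠ i in (U : Filter ℕ), ∀ r c, r ≠ c → 1 ≤ |tau i r - tau i c| :=
    eventually_all.2 fun r => eventually_all.2 fun c => by
      by_cases h : r = c
      · exact Eventually.of_forall fun i hne => absurd h hne
      · exact ((hgap r c h).eventually_ge_atTop 1).mono fun i hi _ => hi
  obtain ⟨i, hi1, hi2⟩ := (hev1.and hev2).exists
  refine trivial_of_exact hT hk (tau i) (fun r c hrc => ?_) b hA ?_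
  · by_contra hne
    have := hi2 r c hne
    rw [hrc, sub_self, abs_zero] at this
    omega
  · have h0 : 0 ≤ μ.real (err T (tau i) b A) := measureReal_nonneg
    have := hquad i
    rw [lt_div_iff₀ (by linarith)] at hi1
    nlinarith

/-- A small limiting parity error forces a nearly trivial set. -/
theorem nearly_trivial (hk : 1 ≤ k) (b : ZMod 2) {A : Set Ω} (hA : MeasurableSet A) {η : ℝ}
    (hη : 400 * (k : ℝ) ^ 6 * η ≤ 1) (hlim : ∃ e, e ≤ η ∧
      Tendsto (fun j => μ.real (err T (tau j) b A)) U (𝓝 e)) :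
    μ.real A ≤ 4 * η ∨ 1 - 4 * η ≤ μ.real A := by
  classical
  let P : ℕ → Type _ := fun n => {S : Set Ω // MeasurableSet S ∧ ∃ e, e ≤ η / 2 ^ n ∧
    Tendsto (fun j => μ.real (err T (tau j) b S)) U (𝓝 e)}
  have hη0 : 0 ≤ η := by
    obtain ⟨e, h1, h2⟩ := hlim
    exact (ge_of_tendsto' h2 fun j => measureReal_nonneg).trans h1
  have hstep : ∀ n (S : P n), ∃ S' : P (n + 1), μ.real (S'.1 ∆ S.1) ≤ 2 * (η / 2 ^ n) := by
    rintro n ⟨S, hS, e, he1, he2⟩
    have hsmall : 400 * (k : ℝ) ^ 6 * e ≤ 1 := by
      refine le_trans (mul_le_mul_of_nonneg_left (he1.trans ?_) (by positivity)) hη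
      exact div_le_self hη0 (one_le_pow₀ (by norm_num))
    obtain ⟨S', hS', hd, e', he', hlim'⟩ := exists_halved hT hgap hk b hS he2 hsmall
    refine ⟨⟨S', hS', e', he'.trans ?_, hlim'⟩, hd.trans (by linarith)⟩
    rw [pow_succ, ← div_div]
    linarith
  choose f hf using hstep
  let seq : ∀ n, P n := fun n => Nat.rec (motive := P) ⟨A, hA, by simpa using hlim⟩ f n
  have hseq : ∀ n, μ.real ((seq (n + 1)).1 ∆ (seq n).1) ≤ 2 * (η / 2 ^ n) := fun n => hf n (seq n)
  set S : ℕ → Set Ω := fun n => (seq n).1 with hSdef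
  have hS : ∀ n, MeasurableSet (S n) := fun n => (seq n).2.1
  set Z : Set Ω := ⋂ n, ⋃ m, S (n + m) with hZdef
  have hZ : MeasurableSet Z := MeasurableSet.iInter fun n => MeasurableSet.iUnion fun m => hS _
  have hclose : ∀ n, μ.real (S n ∆ Z) ≤ 4 * (η / 2 ^ n) := by
    intro n
    have hsub : S n ∆ Z ⊆ ⋃ m, S (n + m + 1) ∆ S (n + m) := by
      intro x hx
      by_contra hcon
      simp only [Set.mem_iUnion, not_exists, Set.mem_symmDiff] at hcon
      have hconst : ∀ m, x ∈ S (n + m) ↔ x ∈ S n := by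
        intro m
        induction m with
        | zero => simp
        | succ m ih => have := hcon m; rw [← add_assoc]; tauto
      have hiff : x ∈ Z ↔ x ∈ S n := by
        simp only [hZdef, Set.mem_iInter, Set.mem_iUnion]
        refine ⟨fun h => ?_, fun h p => ⟨n, by rw [add_comm, hconst]; exact h⟩⟩
        obtain ⟨m, hm⟩ := h n
        exact (hconst m).1 hm
      rw [Set.mem_symmDiff, hiff] at hx
      tauto
    refine (measureReal_mono hsub).trans ?_
    have hgeo : HasSum (fun m : ℕ => 2 * (η / 2 ^ n) / 2 ^ m) (4 * (η / 2 ^ n)) := by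
      exact (hasSum_geometric_two' (4 * (η / 2 ^ n))).congr_fun fun m => by ring
    have hle : ∀ m, μ.real (S (n + m + 1) ∆ S (n + m)) ≤ 2 * (η / 2 ^ n) / 2 ^ m := fun m =>
      (hseq (n + m)).trans_eq (by rw [pow_add]; ring)
    refine le_trans ?_ hgeo.tsum_eq.le
    rw [measureReal_def]
    refine ENNReal.toReal_le_of_le_ofReal (tsum_nonneg fun m => by positivity)
      ((measure_iUnion_le _).trans ?_)
    rw [ENNReal.ofReal_tsum_of_nonneg (fun m => by positivity) hgeo.summable]
    exact ENNReal.tsum_le_tsum fun m => by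
      rw [← ofReal_measureReal]
      exact ENNReal.ofReal_le_ofReal (hle m)
  obtain ⟨eZ, -, heZ⟩ := exists_ulim U (fun j => μ.real (err T (tau j) b Z)) 0 1
    fun j => ⟨measureReal_nonneg, measureReal_le_one⟩
  have hbound : ∀ n, eZ ≤ (1 + 4 * (k : ℝ)) * (η / 2 ^ n) := by
    intro n
    obtain ⟨e, he1, he2⟩ := (seq n).2.2
    have h := le_of_tendsto_of_tendsto' heZ (he2.add_const ((k : ℝ) * μ.real (S n ∆ Z)))
      fun j => real_err_le_add hT (tau j) b (hS n) hZ
    refine h.trans ?_
    rw [add_mul, one_mul]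
    refine add_le_add he1 (le_trans (mul_le_mul_of_nonneg_left (hclose n) (Nat.cast_nonneg k)) ?_)
    exact le_of_eq (by ring)
  have hzero : eZ = 0 := by
    have hpow : Tendsto (fun n : ℕ => (1 + 4 * (k : ℝ)) * (η / 2 ^ n)) atTop (𝓝 0) := by
      simpa [div_eq_mul_inv, inv_pow] using
        ((tendsto_pow_atTop_nhds_zero_of_lt_one (by norm_num : (0 : ℝ) ≤ 2⁻¹)
          (by norm_num)).const_mul η).const_mul (1 + 4 * (k : ℝ))
    exact le_antisymm (ge_of_tendsto' hpow hbound)
      (ge_of_tendsto' heZ fun j => measureReal_nonneg)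
  have htriv := trivial_of_tendsto_zero hT hgap hk b hZ (hzero ▸ heZ)
  have h0 := hclose 0
  simp only [pow_zero, div_one] at h0
  rcases mul_eq_zero.1 (show μ.real Z * (1 - μ.real Z) = 0 by rw [mul_sub, mul_one, ← htriv, sub_self])
    with h | h
  · left
    have h2 : μ.real A ≤ μ.real (S 0 ∆ Z) + μ.real Z :=
      (measureReal_mono fun x (hx : x ∈ A) => by
        by_cases p : x ∈ Z
        · exact Or.inr p
        · exact Or.inl (Or.inl ⟨hx, p⟩)).trans (measureReal_union_le _ _)
    linarith
  · right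
    have h2 : μ.real Z ≤ μ.real (S 0 ∆ Z) + μ.real A :=
      (measureReal_mono fun x (hx : x ∈ Z) => by
        by_cases p : x ∈ A
        · exact Or.inr p
        · exact Or.inl (Or.inr ⟨hx, p⟩)).trans (measureReal_union_le _ _)
    linarith

end Vale.Agent.P102
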