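import Vale.Agent.P102.Basic

/-!
# P102: a small parity error can be halved by changing the set a little

`tau j` is a sequence of configurations whose gaps tend to infinity along an ultrafilter `U`.  If the
parity error of `A` along `tau` tends to a small `e`, then some `A'` with `μ (A' ∆ A) ≤ 2 e` has a
parity error tending to at most `e / 2`.
-/

noncomputable section

namespace Vale.Agent.P102

open MeasureTheory Filter Topology
open scoped symmDiff

variable {Ω : Type*} [MeasurableSpace Ω] {T : Ω ≃ᵐ Ω} {μ : Measure Ω} [IsProbabilityMeasure μ]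

theorem IsUnitFun.integral_nonneg {u : Ω → ℝ} (h : IsUnitFun u) : 0 ≤ ∫ x, u x ∂μ :=
  MeasureTheory.integral_nonneg h.nonneg

theorem integral_indicator_mul {S : Set Ω} (hS : MeasurableSet S) (u : Ω → ℝ) :
    ∫ x, S.indicator (fun _ => (1 : ℝ)) x * u x ∂μ = ∫ x in S, u x ∂μ := by
  rw [← integral_indicator hS]
  refine integral_congr_ae (Eventually.of_forall fun x => ?_)
  by_cases h : x ∈ S <;> simp [h]

theorem real_eq_integral {S : Set Ω} (hS : MeasurableSet S) :
    μ.real S = ∫ x, S.indicator (fun _ => (1 : ℝ)) x ∂μ := by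
  rw [integral_indicator hS, setIntegral_const, smul_eq_mul, mul_one]

theorem real_eq_setIntegral_one (S : Set Ω) : μ.real S = ∫ _ in S, (1 : ℝ) ∂μ := by
  rw [setIntegral_const, smul_eq_mul, mul_one]

variable (hT : IsMixing μ T)
include hT

/-- The error at one configuration is controlled through the error at another one. -/
theorem real_err_le {k : ℕ} (s t : Fin k → ℤ) (b : ZMod 2) {A : Set Ω} (hA : MeasurableSet A)
    (r : Fin k) :
    μ.real (err T s b A) ≤
      (∑ r' ∈ Finset.univ.erase r,
        μ.real (err T s b A ∩ shift T (t r' - t r) ⁻¹' err T s b A)) +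
      ∑ c, μ.real (shift T (-s c) ⁻¹' err T s b A ∩ shift T (-t r) ⁻¹' err T t b A) := by
  have hS := measurableSet_err hT s b hA
  have hE := measurableSet_err hT t b hA
  simp only [← real_inter_tr hT hS hE]
  calc μ.real (err T s b A)
      ≤ μ.real ((⋃ r' ∈ Finset.univ.erase r,
          err T s b A ∩ shift T (t r' - t r) ⁻¹' err T s b A) ∪
          ⋃ c, err T s b A ∩ shift T (s c + -t r) ⁻¹' err T t b A) := by
        refine measureReal_mono fun x hx => ?_
        by_contra hcon
        simp only [Set.mem_union, Set.mem_iUnion, Finset.mem_erase, Finset.mem_univ, and_true,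
          Set.mem_inter_iff, Set.mem_preimage, exists_prop, not_or, not_exists, not_and] at hcon
        obtain ⟨h1, h2⟩ := hcon
        have e := sum_defect_comm T s t b A (shift T (-t r) x)
        simp only [shift_shift] at e
        have e1 : ∀ c, defect T t b A (shift T (s c + -t r) x) = 0 := fun c => by
          by_contra hc; exact h2 c hx hc
        rw [Finset.sum_eq_single r (fun r' _ hr' => by
          by_contra hc
          exact h1 r' hr' hx (by rw [sub_eq_add_neg]; exact hc)) (by simp),
          add_neg_cancel, shift_zero] at e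
        simp only [e1, Finset.sum_const_zero] at e
        exact hx e
    _ ≤ _ := (measureReal_union_le _ _).trans
        (add_le_add (measureReal_biUnion_finset_le _ _) (measureReal_iUnion_fintype_le _))

variable {k : ℕ} {tau : ℕ → Fin k → ℤ} {U : Ultrafilter ℕ}
  (hgap : ∀ r c, r ≠ c → Tendsto (fun j => |tau j r - tau j c|) U atTop)
include hgap

theorem tendsto_self_inter {S : Set Ω} (hS : MeasurableSet S) (r : Fin k) :
    Tendsto (fun j => ∑ r' ∈ Finset.univ.erase r,
      μ.real (S ∩ shift T (tau j r' - tau j r) ⁻¹' S)) U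
      (𝓝 (((k : ℝ) - 1) * μ.real S ^ 2)) := by
  have h : Tendsto (fun j => ∑ r' ∈ Finset.univ.erase r,
      μ.real (S ∩ shift T (tau j r' - tau j r) ⁻¹' S)) U
      (𝓝 (∑ _r' ∈ Finset.univ.erase r, μ.real S * μ.real S)) := by
    refine tendsto_finsetSum _ fun r' hr' => ?_
    have h := tendsto_inter hT (a := fun _ : ℕ => (0 : ℤ)) (b := fun j => tau j r' - tau j r)
      (by simpa [abs_sub_comm] using hgap r' r (Finset.ne_of_mem_erase hr')) hS hS
    have e0 : shift T 0 ⁻¹' S = S := by ext x; simp
    simpa only [e0] using h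
  rw [Finset.sum_const, Finset.card_erase_of_mem (Finset.mem_univ r), Finset.card_univ,
    Fintype.card_fin, nsmul_eq_mul, Nat.cast_sub r.pos, Nat.cast_one] at h
  rwa [sq]

/-- The error of a fixed configuration, bounded by weak limits. -/
theorem real_err_le_weak (b : ZMod 2) {A : Set Ω} (hA : MeasurableSet A) (r : Fin k)
    {K : Ω → ℝ}
    (hK : ∀ g : Ω → ℝ, IsUnitFun g →
      Tendsto (fun j => ∫ x in shift T (-tau j r) ⁻¹' err T (tau j) b A, g x ∂μ) U
        (𝓝 (∫ x, g x * K x ∂μ))) (s : Fin k → ℤ) :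
    μ.real (err T s b A) ≤ ((k : ℝ) - 1) * μ.real (err T s b A) ^ 2 +
      ∑ c, ∫ x in shift T (-s c) ⁻¹' err T s b A, K x ∂μ := by
  have hS := measurableSet_err hT s b hA
  refine le_of_tendsto_of_tendsto' tendsto_const_nhds
    ((tendsto_self_inter hT hgap hS r).add (tendsto_finsetSum _ fun c _ => ?_))
    fun j => real_err_le hT s (tau j) b hA r
  have hSc := measurableSet_tr hT (-s c) hS
  have h := hK _ (isUnitFun_indicator hSc)
  rw [integral_indicator_mul hSc] at h
  refine h.congr fun j => ?_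
  rw [setIntegral_indicator hSc, setIntegral_const, smul_eq_mul, mul_one, Set.inter_comm]

omit hT hgap in
/-- The distance of a number to `{0, 1}`. -/
theorem min_le_abs_sub_indicator (v : ℝ) (E : Set Ω) (x : Ω) :
    min v (1 - v) ≤ |E.indicator (fun _ => (1 : ℝ)) x - v| := by
  by_cases h : x ∈ E <;> simp [h, le_abs_self]

omit hT hgap in
/-- Rounding at one half. -/
theorem sq_sub_round_le (v : ℝ) (hv : 0 ≤ v) (hv' : v ≤ 1) :
    (v - if 1 / 2 < v then 1 else 0) ^ 2 ≤ 2 * (v * min v (1 - v)) := by
  split_ifs with h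
  · rw [min_eq_right (by linarith)]; nlinarith
  · rw [min_eq_left (by linarith)]; nlinarith

omit hgap in
theorem integrable_sq_sub (t : Fin k → ℤ) {E : Set Ω} (hE : MeasurableSet E) {a : Ω → ℝ}
    (ha : IsUnitFun a) :
    Integrable (fun x => (E.indicator (fun _ => (1 : ℝ)) x - ∑ r, a (shift T (t r) x)) ^ 2) μ := by
  refine Integrable.of_bound (((isUnitFun_indicator hE).meas.sub (Finset.measurable_sum _
    fun r _ => ha.meas.comp (mp_shift hT (t r)).measurable)).pow_const 2).aestronglyMeasurable
    (((k : ℝ) + 1) ^ 2) (Eventually.of_forall fun x => ?_)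
  rw [Real.norm_eq_abs, abs_pow]
  refine pow_le_pow_left₀ (abs_nonneg _) ?_ 2
  have h0 : 0 ≤ ∑ r, a (shift T (t r) x) := Finset.sum_nonneg fun r _ => ha.nonneg _
  have h1 : ∑ r, a (shift T (t r) x) ≤ k := by
    simpa using Finset.sum_le_sum fun r (_ : r ∈ Finset.univ) => ha.le_one (shift T (t r) x)
  rw [abs_le]
  constructor <;>
    linarith [(isUnitFun_indicator hE).nonneg x, (isUnitFun_indicator hE).le_one x]

/-- An average weak limit predicts the error set by the sum of its translates. -/
theorem exists_predictor (hk : 1 ≤ k) (b : ZMod 2) {A : Set Ω} (hA : MeasurableSet A) {e : ℝ}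
    (he : Tendsto (fun j => μ.real (err T (tau j) b A)) U (𝓝 e)) :
    ∃ a : Ω → ℝ, IsUnitFun a ∧ ∫ x, a x ∂μ = e ∧ ∫ x, a x * a x ∂μ ≤ e ∧
      ∃ L ≤ (k : ℝ) ^ 2 * e ^ 2, Tendsto (fun j => ∫ x,
        ((err T (tau j) b A).indicator (fun _ => (1 : ℝ)) x -
          ∑ r, a (shift T (tau j r) x)) ^ 2 ∂μ) U (𝓝 L) := by
  have hk1 : (1 : ℝ) ≤ k := by exact_mod_cast hk
  set E : ℕ → Set Ω := fun j => err T (tau j) b A with hEdef
  have hE : ∀ j, MeasurableSet (E j) := fun j => measurableSet_err hT _ b hA
  choose K hKu hK using fun r : Fin k =>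
    exists_weak_limit (μ := μ) U (fun j => shift T (-tau j r) ⁻¹' E j)
      fun j => measurableSet_tr hT _ (hE j)
  -- the integral of each weak limit
  have hKint : ∀ r, ∫ x, K r x ∂μ = e := by
    intro r
    have h := hK r (fun _ => 1) ⟨measurable_const, fun _ => zero_le_one, fun _ => le_rfl⟩
    simp only [one_mul] at h
    refine tendsto_nhds_unique h (he.congr fun j => ?_)
    rw [← real_eq_setIntegral_one, real_tr hT _ (hE j)]
  -- their correlations are almost as large as possible
  have hpair : ∀ r, e - ((k : ℝ) - 1) * e ^ 2 ≤ ∑ c, ∫ x, K r x * K c x ∂μ := by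
    intro r
    have h1 := le_of_tendsto_of_tendsto' he
      (((he.pow 2).const_mul _).add (tendsto_finsetSum _ fun c _ => hK c (K r) (hKu r)))
      fun j => real_err_le_weak hT hgap b hA r (hK r) (tau j)
    linarith
  set a : Ω → ℝ := fun x => (∑ r, K r x) / k with hadef
  have ha : IsUnitFun a := by
    refine ⟨(Finset.measurable_sum _ fun r _ => (hKu r).meas).div_const _,
      fun x => div_nonneg (Finset.sum_nonneg fun r _ => (hKu r).nonneg x) (by positivity),
      fun x => ?_⟩
    rw [hadef]
    simp only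
    rw [div_le_one (by linarith)]
    simpa using Finset.sum_le_card_nsmul Finset.univ (fun r => K r x) 1 fun r _ => (hKu r).le_one x
  have hae : ∫ x, a x ∂μ = e := by
    rw [hadef, integral_div, integral_finsetSum _ fun r _ => (hKu r).integrable]
    simp [hKint]
    field_simp
  set q := ∫ x, a x * a x ∂μ with hq
  have hqe : q ≤ e := by
    rw [← hae]
    exact integral_mono (ha.mul ha).integrable ha.integrable fun x =>
      mul_le_of_le_one_left (ha.nonneg x) (ha.le_one x)
  have haK : ∑ r, ∫ x, a x * K r x ∂μ = k * q := by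
    rw [hq, ← integral_const_mul, ← integral_finsetSum _ fun r _ => (ha.mul (hKu r)).integrable]
    refine integral_congr_ae (Eventually.of_forall fun x => ?_)
    simp only [hadef, ← Finset.mul_sum]
    field_simp
  have hq_low : e - ((k : ℝ) - 1) * e ^ 2 ≤ k * q := by
    have h1 : ∑ r, ∑ c, ∫ x, K r x * K c x ∂μ = k * (k * q) := by
      rw [← haK, Finset.mul_sum, Finset.sum_comm]
      refine Finset.sum_congr rfl fun c _ => ?_
      rw [← integral_const_mul,
        ← integral_finsetSum _ fun r _ => ((hKu r).mul (hKu c)).integrable]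
      refine integral_congr_ae (Eventually.of_forall fun x => ?_)
      simp only [hadef, ← Finset.sum_mul]
      field_simp
    have h2 := Finset.sum_le_sum fun r (_ : r ∈ Finset.univ) => hpair r
    rw [h1, Finset.sum_const, Finset.card_univ, Fintype.card_fin, nsmul_eq_mul] at h2
    exact le_of_mul_le_mul_left h2 (by linarith)
  -- the residual
  set R : ℕ → Ω → ℝ := fun j x =>
    (E j).indicator (fun _ => (1 : ℝ)) x - ∑ r, a (shift T (tau j r) x) with hRdef
  have hat : ∀ n, IsUnitFun fun x => a (shift T n x) := fun n => ha.comp (mp_shift hT n).measurable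
  have hEu : ∀ j, IsUnitFun ((E j).indicator fun _ => (1 : ℝ)) := fun j =>
    isUnitFun_indicator (hE j)
  have hRsq : ∀ j x, R j x ^ 2 = (E j).indicator (fun _ => (1 : ℝ)) x
      - 2 * ∑ r, (E j).indicator (fun _ => (1 : ℝ)) x * a (shift T (tau j r) x)
      + ∑ r, ∑ c, a (shift T (tau j r) x) * a (shift T (tau j c) x) := by
    intro j x
    rw [← Finset.sum_mul_sum, ← Finset.mul_sum]
    by_cases hx : x ∈ E j <;> simp [hRdef, hx] <;> ring
  have i1 : ∀ j, Integrable (fun x => ∑ r, (E j).indicator (fun _ => (1 : ℝ)) x *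
      a (shift T (tau j r) x)) μ := fun j =>
    integrable_finsetSum _ fun r _ => ((hEu j).mul (hat _)).integrable
  have i2 : ∀ j, Integrable (fun x => ∑ r, ∑ c, a (shift T (tau j r) x) *
      a (shift T (tau j c) x)) μ := fun j =>
    integrable_finsetSum _ fun r _ => integrable_finsetSum _ fun c _ =>
      ((hat _).mul (hat _)).integrable
  have iR : ∀ j, Integrable (fun x => R j x ^ 2) μ := fun j => by
    simp only [hRsq]
    exact ((hEu j).integrable.sub ((i1 j).const_mul 2)).add (i2 j)
  have hRint : ∀ j, ∫ x, R j x ^ 2 ∂μ = μ.real (E j)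
      - 2 * ∑ r, ∫ x in shift T (-tau j r) ⁻¹' E j, a x ∂μ
      + ∑ r, ∑ c, ∫ x, a (shift T (tau j r) x) * a (shift T (tau j c) x) ∂μ := by
    intro j
    simp only [hRsq]
    rw [integral_add (f := fun x => _ - _) ((hEu j).integrable.sub ((i1 j).const_mul 2)) (i2 j),
      integral_sub (hEu j).integrable ((i1 j).const_mul 2), ← real_eq_integral (hE j),
      integral_const_mul, integral_finsetSum _ fun r _ => ((hEu j).mul (hat _)).integrable,
      integral_finsetSum _ fun r _ => integrable_finsetSum _ fun c _ =>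
        ((hat _).mul (hat _)).integrable]
    congr 1
    · congr 2
      refine Finset.sum_congr rfl fun r _ => ?_
      rw [← integral_indicator_mul (measurableSet_tr hT _ (hE j)),
        ← integral_comp_shift hT ((isUnitFun_indicator (measurableSet_tr hT _ (hE j))).mul ha).meas
          (tau j r)]
      refine integral_congr_ae (Eventually.of_forall fun x => ?_)
      by_cases hx : x ∈ E j <;> simp [hx, shift_shift]
    · exact Finset.sum_congr rfl fun r _ =>
        integral_finsetSum _ fun c _ => ((hat _).mul (hat _)).integrable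
  set L := e - 2 * (k * q) + ∑ r : Fin k, ∑ c : Fin k, (if r = c then q else e * e) with hLdef
  have hRlim : Tendsto (fun j => ∫ x, R j x ^ 2 ∂μ) U (𝓝 L) := by
    simp only [hRint, hLdef, ← haK]
    refine (he.sub ((tendsto_finsetSum _ fun r _ => hK r a ha).const_mul 2)).add
      (tendsto_finsetSum _ fun r _ => tendsto_finsetSum _ fun c _ => ?_)
    split_ifs with hrc
    · subst hrc
      simp only [hq, integral_comp_shift hT (ha.mul ha).meas]
      exact tendsto_const_nhds
    · have h := tendsto_integral_mul hT (hgap r c hrc) ha ha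
      rwa [hae] at h
  have hLle : L ≤ (k : ℝ) ^ 2 * e ^ 2 := by
    have h : ∀ r : Fin k, ∑ c : Fin k, (if r = c then q else e * e) =
        q + ((k : ℝ) - 1) * (e * e) := by
      intro r
      rw [← Finset.add_sum_erase _ _ (Finset.mem_univ r), if_pos rfl,
        Finset.sum_congr rfl fun c hc => if_neg (Finset.ne_of_mem_erase hc).symm,
        Finset.sum_const, Finset.card_erase_of_mem (Finset.mem_univ r), Finset.card_univ,
        Fintype.card_fin, nsmul_eq_mul, Nat.cast_sub hk, Nat.cast_one]
    rw [hLdef, Finset.sum_congr rfl fun r _ => h r, Finset.sum_const, Finset.card_univ,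
      Fintype.card_fin, nsmul_eq_mul]
    nlinarith [hq_low, sq_nonneg e]
  exact ⟨a, ha, hae, hqe, L, hLle, hRlim⟩

/-- The predictor is close to an indicator. -/
theorem predictor_almost_round (hk : 1 ≤ k) {E : ℕ → Set Ω} (hE : ∀ j, MeasurableSet (E j))
    {a : Ω → ℝ} (ha : IsUnitFun a) {e L θ : ℝ} (hae : ∫ x, a x ∂μ = e) (hθpos : 0 < θ)
    (hRlim : Tendsto (fun j => ∫ x, ((E j).indicator (fun _ => (1 : ℝ)) x -
      ∑ r, a (shift T (tau j r) x)) ^ 2 ∂μ) U (𝓝 L)) :
    ∫ x, a x * min (a x) (1 - a x) ∂μ ≤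
      θ / 2 * (∫ x, a x * a x ∂μ) + 1 / (2 * θ) * L + ((k : ℝ) - 1) * (e * e) := by
  set q := ∫ x, a x * a x ∂μ with hq
  set R : ℕ → Ω → ℝ := fun j x =>
    (E j).indicator (fun _ => (1 : ℝ)) x - ∑ r, a (shift T (tau j r) x) with hRdef
  have hat : ∀ n, IsUnitFun fun x => a (shift T n x) := fun n => ha.comp (mp_shift hT n).measurable
  have iR : ∀ j, Integrable (fun x => R j x ^ 2) μ := fun j =>
    integrable_sq_sub hT (tau j) (hE j) ha
  set d : Ω → ℝ := fun x => a x * min (a x) (1 - a x) with hddef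
  have hd : IsUnitFun d := by
    refine ⟨ha.meas.mul (ha.meas.min (measurable_const.sub ha.meas)),
      fun x => mul_nonneg (ha.nonneg x) (le_min (ha.nonneg x) (by linarith [ha.le_one x])),
      fun x => mul_le_one₀ (ha.le_one x) (le_min (ha.nonneg x) (by linarith [ha.le_one x]))
        ((min_le_left _ _).trans (ha.le_one x))⟩
  set D := ∫ x, d x ∂μ with hD
  show D ≤ θ / 2 * q + 1 / (2 * θ) * L + ((k : ℝ) - 1) * (e * e)
  obtain ⟨r₀⟩ : Nonempty (Fin k) := ⟨⟨0, hk⟩⟩
  have hlim : Tendsto (fun j => θ / 2 * q + 1 / (2 * θ) * ∫ x, R j x ^ 2 ∂μ +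
      ∑ c ∈ Finset.univ.erase r₀, ∫ x, a (shift T (tau j r₀) x) * a (shift T (tau j c) x) ∂μ) U
      (𝓝 (θ / 2 * q + 1 / (2 * θ) * L + ∑ _c ∈ Finset.univ.erase r₀, e * e)) := by
    refine (tendsto_const_nhds.add (hRlim.const_mul _)).add (tendsto_finsetSum _ fun c hc => ?_)
    have h := tendsto_integral_mul hT (hgap r₀ c (Finset.ne_of_mem_erase hc).symm) ha ha
    rwa [hae] at h
  rw [Finset.sum_const, Finset.card_erase_of_mem (Finset.mem_univ r₀), Finset.card_univ,
    Fintype.card_fin, nsmul_eq_mul, Nat.cast_sub hk, Nat.cast_one] at hlim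
  refine ge_of_tendsto' hlim fun j => ?_
  rw [hD, hq, ← integral_comp_shift hT hd.meas (tau j r₀),
    ← integral_comp_shift hT (ha.mul ha).meas (tau j r₀), ← integral_const_mul,
    ← integral_const_mul,
    ← integral_finsetSum _ fun c _ => ((hat _).mul (hat _)).integrable,
    ← integral_add (((hat _).mul (hat _)).integrable.const_mul _) ((iR j).const_mul _),
    ← integral_add (f := fun x => _ + _)
      ((((hat _).mul (hat _)).integrable.const_mul _).add ((iR j).const_mul _))
      (integrable_finsetSum _ fun c _ => ((hat _).mul (hat _)).integrable)]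
  refine integral_mono (hd.comp (mp_shift hT _).measurable).integrable
    (((((hat _).mul (hat _)).integrable.const_mul _).add ((iR j).const_mul _)).add
      (integrable_finsetSum _ fun c _ => ((hat _).mul (hat _)).integrable)) fun x => ?_
  simp only [hddef, ← Finset.mul_sum]
  set v := a (shift T (tau j r₀) x) with hv
  set S := ∑ c ∈ Finset.univ.erase r₀, a (shift T (tau j c) x) with hS
  have hS0 : 0 ≤ S := Finset.sum_nonneg fun c _ => ha.nonneg _
  have h1 : |(E j).indicator (fun _ => (1 : ℝ)) x - v| ≤ |R j x| + S := by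
    have : (E j).indicator (fun _ => (1 : ℝ)) x - v = R j x + S := by
      simp only [hRdef, hv, hS, ← Finset.add_sum_erase _ _ (Finset.mem_univ r₀)]
      ring
    rw [this]
    exact (abs_add_le _ _).trans_eq (by rw [abs_of_nonneg hS0])
  have h2 : v * |R j x| ≤ θ / 2 * (v * v) + 1 / (2 * θ) * R j x ^ 2 := by
    have h3 := two_mul_le_add_sq (θ * v) (|R j x|)
    rw [sq_abs] at h3
    field_simp
    linarith
  have h4 := mul_le_mul_of_nonneg_left
    ((min_le_abs_sub_indicator v (E j) x).trans h1) (ha.nonneg (shift T (tau j r₀) x))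
  rw [← hv, mul_add] at h4
  linarith

omit hT hgap in
/-- The pointwise effect of correcting `A` by the rounded predictor. -/
theorem indicator_err_le (t : Fin k → ℤ) (b : ZMod 2) (A : Set Ω) {a : Ω → ℝ} (ha : IsUnitFun a)
    (x : Ω) :
    (err T t b (A ∆ {y | 1 / 2 < a y})).indicator (fun _ => (1 : ℝ)) x ≤
      2 * ((err T t b A).indicator (fun _ => (1 : ℝ)) x - ∑ r, a (shift T (t r) x)) ^ 2 +
      4 * (k : ℝ) * ∑ r, a (shift T (t r) x) * min (a (shift T (t r) x))
        (1 - a (shift T (t r) x)) := by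
  classical
  set d : Ω → ℝ := fun y => a y * min (a y) (1 - a y) with hddef
  set B : Set Ω := {y | 1 / 2 < a y} with hBdef
  set E : Set Ω := err T t b A with hEdef
  set R : ℝ := E.indicator (fun _ => (1 : ℝ)) x - ∑ r, a (shift T (t r) x) with hRdef
  have hd : ∀ y, 0 ≤ d y := fun y =>
    mul_nonneg (ha.nonneg y) (le_min (ha.nonneg y) (by linarith [ha.le_one y]))
  have hd0 : 0 ≤ ∑ r, d (shift T (t r) x) := Finset.sum_nonneg fun r _ => hd _
  show (err T t b (A ∆ B)).indicator (fun _ => (1 : ℝ)) x ≤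
    2 * R ^ 2 + 4 * (k : ℝ) * ∑ r, d (shift T (t r) x)
  by_cases hx : x ∈ err T t b (A ∆ B)
  swap
  · simp only [Set.indicator_of_notMem hx]
    positivity
  rw [Set.indicator_of_mem hx]
  set w : Fin k → ℝ := fun r => B.indicator (fun _ => (1 : ℝ)) (shift T (t r) x) with hw
  set n : ℕ := ∑ r, B.indicator (fun _ => 1) (shift T (t r) x) with hn
  have hnR : (n : ℝ) = ∑ r, w r := by
    rw [hn, Nat.cast_sum]
    refine Finset.sum_congr rfl fun r _ => ?_
    by_cases h : shift T (t r) x ∈ B <;> simp [hw, h]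
  have hn2 : (n : ZMod 2) = ∑ r, ind B (shift T (t r) x) := by
    rw [hn, Nat.cast_sum]
    refine Finset.sum_congr rfl fun r _ => ?_
    by_cases h : shift T (t r) x ∈ B <;> simp [ind, h]
  have hdef : defect T t b (A ∆ B) x = defect T t b A x + (n : ZMod 2) := by
    rw [hn2, defect, defect, add_assoc, ← Finset.sum_add_distrib]
    congr 1
    refine Finset.sum_congr rfl fun r _ => ?_
    by_cases h : shift T (t r) x ∈ A <;> by_cases h' : shift T (t r) x ∈ B <;>
      simp [ind, Set.mem_symmDiff, h, h', CharTwo.add_self_eq_zero]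
  have hone : 1 ≤ (E.indicator (fun _ => (1 : ℝ)) x - ∑ r, w r) ^ 2 := by
    rw [← hnR]
    by_cases hxE : x ∈ E
    · have h1 : defect T t b A x = 1 := (by decide : ∀ z : ZMod 2, z ≠ 0 → z = 1) _ hxE
      have hne : n ≠ 1 := fun h => hx (by rw [hdef, h1, h]; rfl)
      rw [Set.indicator_of_mem hxE]
      rcases Nat.lt_or_ge n 2 with h | h
      · have h0 : n = 0 := by omega
        rw [h0]
        simp
      · have : (2 : ℝ) ≤ n := by exact_mod_cast h
        nlinarith
    · have h1 : defect T t b A x = 0 := not_not.1 hxE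
      have hne : n ≠ 0 := fun h => hx (by rw [hdef, h1, h]; rfl)
      have : (1 : ℝ) ≤ n := by exact_mod_cast Nat.one_le_iff_ne_zero.2 hne
      rw [Set.indicator_of_notMem hxE]
      nlinarith
  have hsplit : E.indicator (fun _ => (1 : ℝ)) x - ∑ r, w r =
      R + ∑ r, (a (shift T (t r) x) - w r) := by
    simp only [hRdef, Finset.sum_sub_distrib]
    ring
  have hcs : (∑ r, (a (shift T (t r) x) - w r)) ^ 2 ≤
      (k : ℝ) * ∑ r, (a (shift T (t r) x) - w r) ^ 2 := by
    simpa using sq_sum_le_card_mul_sum_sq (s := Finset.univ)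
      (f := fun r => a (shift T (t r) x) - w r)
  have hround : ∀ r, (a (shift T (t r) x) - w r) ^ 2 ≤ 2 * d (shift T (t r) x) := by
    intro r
    refine le_of_eq_of_le ?_ (sq_sub_round_le _ (ha.nonneg _) (ha.le_one _))
    simp only [hw, Set.indicator_apply, hBdef, Set.mem_setOf_eq]
  have hsr := Finset.sum_le_sum fun r (_ : r ∈ Finset.univ) => hround r
  rw [← Finset.mul_sum] at hsr
  rw [hsplit] at hone
  nlinarith [add_sq_le (a := R) (b := ∑ r, (a (shift T (t r) x) - w r)), hcs,
    mul_le_mul_of_nonneg_left hsr (show (0 : ℝ) ≤ k by positivity)]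

omit hT hgap in
/-- The arithmetic of one improvement step. -/
theorem halved_arith (hk : 1 ≤ k) {e q L D e' : ℝ} (hepos : 0 < e)
    (hsmall : 400 * (k : ℝ) ^ 6 * e ≤ 1) (hqe : q ≤ e) (hLle : L ≤ (k : ℝ) ^ 2 * e ^ 2)
    (hDle : D ≤ (k : ℝ) * Real.sqrt e / 2 * q + 1 / (2 * ((k : ℝ) * Real.sqrt e)) * L +
      ((k : ℝ) - 1) * (e * e))
    (h1 : e' ≤ 2 * L + 4 * (k : ℝ) * (k * D)) : e' ≤ e / 2 := by
  have hk1 : (1 : ℝ) ≤ k := by exact_mod_cast hk
  have he0 := hepos.le
  set θ := (k : ℝ) * Real.sqrt e with hθ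
  have hθpos : 0 < θ := by positivity
  have hDle' : D ≤ 2 * (k * Real.sqrt e * e) := by
    have hs2 : Real.sqrt e * Real.sqrt e = e := Real.mul_self_sqrt he0
    have h1 : θ / 2 * q ≤ θ / 2 * e := mul_le_mul_of_nonneg_left hqe (by positivity)
    have h2 : 1 / (2 * θ) * L ≤ θ / 2 * e := by
      have h3 : 1 / (2 * θ) * L ≤ 1 / (2 * θ) * (θ ^ 2 * e) := by
        refine mul_le_mul_of_nonneg_left (hLle.trans_eq ?_) (by positivity)
        rw [hθ, mul_pow, Real.sq_sqrt he0]; ring
      refine h3.trans_eq ?_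
      field_simp
    have h6 : (1 : ℝ) ≤ (k : ℝ) ^ 6 := one_le_pow₀ hk1
    have he1 : e ≤ 1 := by nlinarith
    have hse : e ≤ Real.sqrt e := by
      nlinarith [Real.sqrt_nonneg e, Real.sqrt_le_one.2 he1]
    have h4 : ((k : ℝ) - 1) * (e * e) ≤ θ * e := by
      rw [hθ, ← mul_assoc]
      exact mul_le_mul_of_nonneg_right (mul_le_mul (by linarith) hse he0 (by linarith)) he0
    linarith
  set s := Real.sqrt e with hs
  have hs2 : s * s = e := Real.mul_self_sqrt he0
  have hs0 : 0 ≤ s := Real.sqrt_nonneg e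
  have hk3 : 20 * (k : ℝ) ^ 3 * s ≤ 1 := by
    nlinarith [show (20 * (k : ℝ) ^ 3 * s) ^ 2 = 400 * (k : ℝ) ^ 6 * e by rw [← hs2]; ring,
      sq_nonneg (20 * (k : ℝ) ^ 3 * s - 1)]
  have hse : e ≤ s := by
    have : 1 * s ≤ 20 * (k : ℝ) ^ 3 * s :=
      mul_le_mul_of_nonneg_right (by nlinarith [one_le_pow₀ (n := 3) hk1]) hs0
    nlinarith
  have h2' : (k : ℝ) ^ 2 * e ^ 2 ≤ (k : ℝ) ^ 3 * (s * e) := by
    rw [sq e]
    exact mul_le_mul (pow_le_pow_right₀ hk1 (by norm_num))
      (mul_le_mul_of_nonneg_right hse he0) (by positivity) (by positivity)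
  have h3 : (k : ℝ) * (k * D) ≤ (k : ℝ) * (k * (2 * (k * s * e))) :=
    mul_le_mul_of_nonneg_left (mul_le_mul_of_nonneg_left hDle' (by linarith)) (by linarith)
  nlinarith [mul_le_mul_of_nonneg_right hk3 he0, hLle, h2', h3, h1]


/-- A small limiting error can be halved by a small change of the set. -/
theorem exists_halved (hk : 1 ≤ k) (b : ZMod 2) {A : Set Ω} (hA : MeasurableSet A) {e : ℝ}
    (he : Tendsto (fun j => μ.real (err T (tau j) b A)) U (𝓝 e))
    (hsmall : 400 * (k : ℝ) ^ 6 * e ≤ 1) :
    ∃ A', MeasurableSet A' ∧ μ.real (A' ∆ A) ≤ 2 * e ∧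
      ∃ e', e' ≤ e / 2 ∧ Tendsto (fun j => μ.real (err T (tau j) b A')) U (𝓝 e') := by
  have hk1 : (1 : ℝ) ≤ k := by exact_mod_cast hk
  have he0 : 0 ≤ e := ge_of_tendsto' he fun j => measureReal_nonneg
  rcases eq_or_lt_of_le he0 with rfl | hepos
  · exact ⟨A, hA, by simp, 0, by simp, he⟩
  obtain ⟨a, ha, hae, hqe, L, hLle, hRlim⟩ := exists_predictor hT hgap hk b hA he
  have hDle := predictor_almost_round hT hgap hk (fun j => measurableSet_err hT (tau j) b hA) ha hae
    (mul_pos (by linarith : (0 : ℝ) < k) (Real.sqrt_pos.2 hepos)) hRlim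
  set d : Ω → ℝ := fun x => a x * min (a x) (1 - a x) with hddef
  have hd : IsUnitFun d := by
    refine ⟨ha.meas.mul (ha.meas.min (measurable_const.sub ha.meas)),
      fun x => mul_nonneg (ha.nonneg x) (le_min (ha.nonneg x) (by linarith [ha.le_one x])),
      fun x => mul_le_one₀ (ha.le_one x) (le_min (ha.nonneg x) (by linarith [ha.le_one x]))
        ((min_le_left _ _).trans (ha.le_one x))⟩
  set D := ∫ x, d x ∂μ with hD
  set B : Set Ω := {x | 1 / 2 < a x} with hBdef
  have hB : MeasurableSet B := measurableSet_lt measurable_const ha.meas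
  have hBe : μ.real B ≤ 2 * e := by
    rw [real_eq_integral hB, ← hae, ← integral_const_mul]
    refine integral_mono (isUnitFun_indicator hB).integrable (ha.integrable.const_mul 2) fun x => ?_
    by_cases hx : x ∈ B
    · have : 1 / 2 < a x := hx
      simp only [Set.indicator_of_mem hx]
      linarith
    · simp [hx, ha.nonneg x]
  refine ⟨A ∆ B, hA.symmDiff hB, by rw [symmDiff_comm, symmDiff_symmDiff_cancel_left]; exact hBe, ?_⟩
  obtain ⟨e', -, he'⟩ := exists_ulim U (fun j => μ.real (err T (tau j) b (A ∆ B))) 0 1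
    fun j => ⟨measureReal_nonneg, measureReal_le_one⟩
  refine ⟨e', halved_arith hk hepos hsmall hqe hLle hDle ?_, he'⟩
  have hb1 : ∀ j, μ.real (err T (tau j) b (A ∆ B)) ≤
      2 * ∫ x, ((err T (tau j) b A).indicator (fun _ => (1 : ℝ)) x -
        ∑ r, a (shift T (tau j r) x)) ^ 2 ∂μ + 4 * (k : ℝ) * (k * D) := by
    intro j
    have hsum : ∑ r, ∫ x, d (shift T (tau j r) x) ∂μ = k * D := by
      simp [integral_comp_shift hT hd.meas, hD]
    have id' : ∀ r : Fin k, Integrable (fun x => d (shift T (tau j r) x)) μ := fun r =>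
      (hd.comp (mp_shift hT _).measurable).integrable
    rw [real_eq_integral (measurableSet_err hT _ b (hA.symmDiff hB)), ← hsum,
      ← integral_finsetSum _ fun r _ => id' r, ← integral_const_mul, ← integral_const_mul,
      ← integral_add ((integrable_sq_sub hT (tau j) (measurableSet_err hT (tau j) b hA) ha).const_mul 2) ((integrable_finsetSum _ fun r _ => id' r).const_mul _)]
    refine integral_mono (isUnitFun_indicator (measurableSet_err hT _ b (hA.symmDiff hB))).integrable
      (((integrable_sq_sub hT (tau j) (measurableSet_err hT (tau j) b hA) ha).const_mul 2).add ((integrable_finsetSum _ fun r _ => id' r).const_mul _)) fun x =>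
        indicator_err_le (tau j) b A ha x
  exact le_of_tendsto_of_tendsto' he' ((hRlim.const_mul 2).add_const _) hb1

end Vale.Agent.P102
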